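import Vale.Agent.P237.Four.Bound
import Vale.Agent.P237.All.Select
import Vale.Agent.P237.Three.Assemble
import Vale.Agent.P237.Three.Profile

/-!
P237, dimension four: the profile bound under the averaged variance test, and Petty's inequality
with its equality case in dimension four.
-/

noncomputable section

open MeasureTheory Set Real intervalIntegral

namespace Vale.Agent.P237.Four

open All (IsProfile MixedTest ProfileBound semi varTerm)

/-- A profile cut off at height one. -/
def cut (f : ℝ → ℝ) (t : ℝ) : ℝ := if t < 1 then f t else 0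

variable {f : ℝ → ℝ}

theorem half_cut (hf : IsProfile f) : Half (cut f) := by
  obtain ⟨hc, he, hS⟩ := hf
  have hsub : Ico (0 : ℝ) 1 ⊆ Ioo (-1) 1 := fun x hx => ⟨by linarith [hx.1], hx.2⟩
  have heq : EqOn f (cut f) (Ico 0 1) := fun x hx => by simp [cut, hx.2]
  refine ⟨(hc.subset hsub (convex_Ico 0 1)).congr heq, ?_, fun t ht => ?_, by simp [cut]⟩
  · intro x hx y hy hxy
    by_cases hy1 : y < 1
    · have hx1 : x < 1 := hxy.trans_lt hy1
      simp only [cut, hx1, hy1, if_true]
      rcases eq_or_lt_of_le hy.1 with h0 | h0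
      · obtain rfl : x = y := le_antisymm hxy (h0.symm.le.trans hx.1)
        exact le_rfl
      · have hyI : y ∈ Ioo (-1 : ℝ) 1 := ⟨by linarith, hy1⟩
        have hnI : -y ∈ Ioo (-1 : ℝ) 1 := ⟨by linarith, by linarith⟩
        have h1 : 0 ≤ (y + x) / (2 * y) := div_nonneg (by linarith [hx.1]) (by linarith)
        have h2 : 0 ≤ (y - x) / (2 * y) := div_nonneg (by linarith) (by linarith)
        have h3 : (y + x) / (2 * y) + (y - x) / (2 * y) = 1 := by field_simp; ring
        have h4 := hc.2 hyI hnI h1 h2 h3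
        have h5 : (y + x) / (2 * y) * y + (y - x) / (2 * y) * (-y) = x := by field_simp; ring
        simp only [smul_eq_mul, h5, he y hyI] at h4
        rwa [← add_mul, h3, one_mul] at h4
    · simp only [cut, hy1, if_false]
      split_ifs with hx1
      · exact (sqrt_nonneg _).trans (hS x (hsub ⟨hx.1, hx1⟩))
      · exact le_rfl
  · rw [← heq ht]
    exact hS t (hsub ht)

/-- An even weight against a power of a profile over the whole axis. -/
theorem integral_two (hf : IsProfile f) {w : ℝ → ℝ} (hw : Continuous w)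
    (hwe : ∀ t, w (-t) = w t) (k : ℕ) :
    ∫ t in (-1 : ℝ)..1, w t * f t ^ k = 2 * ∫ t in (0 : ℝ)..1, w t * cut f t ^ k := by
  have hF := half_cut hf
  set g := fun t => w t * cut f t ^ k with hg
  have hgi : IntervalIntegrable g volume 0 1 :=
    (hF.intervalIntegrable_pow k le_rfl zero_le_one le_rfl).continuousOn_mul hw.continuousOn
  have hne : ∀ᵐ t : ℝ, t ≠ 1 := by simp [ae_iff]
  have hae : ∀ᵐ t : ℝ, t ∈ uIoc (0 : ℝ) 1 → g t = w t * f t ^ k := by
    filter_upwards [hne] with t ht htI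
    rw [uIoc_of_le zero_le_one] at htI
    simp [hg, cut, lt_of_le_of_ne htI.2 ht]
  have hfi : IntervalIntegrable (fun t => w t * f t ^ k) volume 0 1 :=
    hgi.congr_ae ((ae_restrict_iff' measurableSet_uIoc).2 hae)
  have hneg : ∀ᵐ t : ℝ, t ∈ uIoc (0 : ℝ) 1 → w (-t) * f (-t) ^ k = w t * f t ^ k := by
    filter_upwards [hne] with t ht htI
    rw [uIoc_of_le zero_le_one] at htI
    rw [hwe, hf.2.1 t ⟨by linarith [htI.1], lt_of_le_of_ne htI.2 ht⟩]
  have hni : IntervalIntegrable (fun t => w t * f t ^ k) volume (-1) 0 := by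
    have h := hfi.congr_ae
      ((ae_restrict_iff' measurableSet_uIoc).2 (hneg.mono fun t h1 h2 => (h1 h2).symm))
    have h' := (h.comp_sub_left 0).symm
    simpa using h'
  have e1 : ∫ t in (-1 : ℝ)..0, w t * f t ^ k = ∫ t in (0 : ℝ)..1, g t := by
    have := intervalIntegral.integral_comp_neg (fun t => w t * f t ^ k) (a := 0) (b := 1)
    rw [neg_zero] at this
    rw [← this]
    refine intervalIntegral.integral_congr_ae ?_
    filter_upwards [hneg, hae] with t h1 h2 ht
    rw [h1 ht, h2 ht]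
  have e2 : ∫ t in (0 : ℝ)..1, w t * f t ^ k = ∫ t in (0 : ℝ)..1, g t :=
    intervalIntegral.integral_congr_ae (by filter_upwards [hae] with t h ht; rw [h ht])
  rw [← integral_add_adjacent_intervals hni hfi, e1, e2]
  ring

theorem isProfile_semi : IsProfile semi := by
  refine ⟨⟨convex_Ioo _ _, fun x hx y hy a b ha hb hab => ?_⟩,
    fun t _ => by simp [semi], fun t _ => le_rfl⟩
  simp only [semi, smul_eq_mul]
  have hx2 : 0 ≤ 1 - x ^ 2 := by nlinarith [hx.1, hx.2]
  have hy2 : 0 ≤ 1 - y ^ 2 := by nlinarith [hy.1, hy.2]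
  obtain rfl : b = 1 - a := by linarith
  refine le_sqrt_of_sq_le ?_
  have h : √(1 - x ^ 2) * √(1 - y ^ 2) ≤ 1 - x * y := by
    rw [← sqrt_mul hx2]
    exact sqrt_le_iff.2 ⟨by nlinarith [sq_nonneg (x - y)], by nlinarith [sq_nonneg (x - y)]⟩
  linear_combination a ^ 2 * sq_sqrt hx2 + (1 - a) ^ 2 * sq_sqrt hy2 +
    2 * mul_le_mul_of_nonneg_left h (mul_nonneg ha hb)

theorem integral_cut_semi (w : ℝ → ℝ) {k : ℕ} (hk : k ≠ 0) :
    ∫ t in (0 : ℝ)..1, w t * cut semi t ^ k = ∫ t in (0 : ℝ)..1, w t * √(1 - t ^ 2) ^ k := by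
  refine intervalIntegral.integral_congr fun t ht => ?_
  rw [uIcc_of_le zero_le_one] at ht
  rcases eq_or_lt_of_le ht.2 with rfl | h
  · simp [cut, hk]
  · simp [cut, semi, h]

theorem integral_sqrt_cube : ∫ t in (0 : ℝ)..1, √(1 - t ^ 2) ^ 3 = 3 * π / 16 := by
  have hd : ∀ t ∈ Ioo (0 : ℝ) 1, HasDerivAt (fun t => t * √(1 - t ^ 2) ^ 3)
      (4 * √(1 - t ^ 2) ^ 3 - 3 * √(1 - t ^ 2)) t := fun t ht => by
    have hp : 0 < 1 - t ^ 2 := by nlinarith [ht.1, ht.2]
    have h1 := (((hasDerivAt_id t).fun_pow 2).const_sub 1).sqrt hp.ne'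
    have h2 := (hasDerivAt_id t).mul (h1.fun_pow 3)
    refine h2.congr_deriv ?_
    simp only [id]
    push_cast
    field_simp
    linear_combination (-3 : ℝ) * sq_sqrt hp.le
  have hi1 : IntervalIntegrable (fun t : ℝ => 4 * √(1 - t ^ 2) ^ 3) volume 0 1 :=
    Continuous.intervalIntegrable (by fun_prop) _ _
  have hi2 : IntervalIntegrable (fun t : ℝ => 3 * √(1 - t ^ 2)) volume 0 1 :=
    Continuous.intervalIntegrable (by fun_prop) _ _
  have h := integral_eq_sub_of_hasDerivAt_of_le zero_le_one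
    (f := fun t : ℝ => t * √(1 - t ^ 2) ^ 3) (by fun_prop) hd (hi1.sub hi2)
  rw [intervalIntegral.integral_sub hi1 hi2, intervalIntegral.integral_const_mul,
    intervalIntegral.integral_const_mul, Three.Profile.integral_semi] at h
  norm_num at h
  linarith

theorem integral_sqrt_five :
    ∫ t in (0 : ℝ)..1, (5 * t ^ 2 * √(1 - t ^ 2) ^ 3 - √(1 - t ^ 2) ^ 5) = 0 := by
  have hd : ∀ t ∈ Ioo (0 : ℝ) 1, HasDerivAt (fun t => -(t * √(1 - t ^ 2) ^ 5))
      (5 * t ^ 2 * √(1 - t ^ 2) ^ 3 - √(1 - t ^ 2) ^ 5) t := fun t ht => by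
    have hp : 0 < 1 - t ^ 2 := by nlinarith [ht.1, ht.2]
    have h1 := (((hasDerivAt_id t).fun_pow 2).const_sub 1).sqrt hp.ne'
    have h2 := ((hasDerivAt_id t).mul (h1.fun_pow 5)).neg
    refine h2.congr_deriv ?_
    simp only [id]
    push_cast
    field_simp
    ring
  rw [integral_eq_sub_of_hasDerivAt_of_le zero_le_one
    (f := fun t : ℝ => -(t * √(1 - t ^ 2) ^ 5)) (by fun_prop) hd
    (Continuous.intervalIntegrable (by fun_prop) _ _)]
  simp

/-- The profile bound for four dimensional bodies. -/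
theorem profileBound (hf : IsProfile f)
    (h : MixedTest 3 (fun _ => 1) (fun _ => 0) (fun _ => 0) f) : ProfileBound 3 f := by
  have hF := half_cut hf
  set F := cut f with hFdef
  have hP : ∀ k : ℕ, IntervalIntegrable (fun t => F t ^ k) volume 0 1 := fun k =>
    hF.intervalIntegrable_pow k le_rfl zero_le_one le_rfl
  have hS : ∀ k : ℕ, IntervalIntegrable (fun t : ℝ => √(1 - t ^ 2) ^ k) volume 0 1 := fun k =>
    Continuous.intervalIntegrable (by fun_prop) _ _
  -- the test on the half axis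
  have hv := h (fun _ => 0) (fun _ => 0) (fun t => hasDerivAt_const t 0) continuous_const
  simp only [one_mul, zero_mul, add_zero, sub_zero, varTerm] at hv
  have e3 : ∫ t in (-1 : ℝ)..1, t ^ 2 * f t ^ 3 = 2 * ∫ t in (0 : ℝ)..1, t ^ 2 * F t ^ 3 :=
    integral_two hf (by fun_prop) (fun t => neg_sq t) 3
  have ek : ∀ k : ℕ, ∫ t in (-1 : ℝ)..1, f t ^ k = 2 * ∫ t in (0 : ℝ)..1, F t ^ k := fun k => by
    simpa using integral_two hf (w := fun _ => 1) continuous_const (fun _ => rfl) k
  have esk : ∀ k : ℕ, k ≠ 0 →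
      ∫ t in (-1 : ℝ)..1, semi t ^ k = 2 * ∫ t in (0 : ℝ)..1, √(1 - t ^ 2) ^ k := fun k hk => by
    have := integral_two isProfile_semi (w := fun _ => 1) continuous_const (fun _ => rfl) k
    rw [integral_cut_semi _ hk] at this
    simpa using this
  rw [e3, ek (3 + 2)] at hv
  norm_num at hv
  have hB : Tested F := by
    have h3 := (hP 3).continuousOn_mul (g := fun t => 5 * t ^ 2) (by fun_prop)
    have h3' := (hS 3).continuousOn_mul (g := fun t => 5 * t ^ 2) (by fun_prop)
    have e : (fun t : ℝ => 5 * t ^ 2 * (F t ^ 3 - √(1 - t ^ 2) ^ 3) -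
        (F t ^ 5 - √(1 - t ^ 2) ^ 5)) = fun t => (5 * t ^ 2 * F t ^ 3 - F t ^ 5) -
        (5 * t ^ 2 * √(1 - t ^ 2) ^ 3 - √(1 - t ^ 2) ^ 5) := by funext t; ring
    rw [Tested, e, intervalIntegral.integral_sub (h3.sub (hP 5)) (h3'.sub (hS 5)),
      integral_sqrt_five, intervalIntegral.integral_sub h3 (hP 5), sub_zero]
    simp only [mul_assoc]
    rw [intervalIntegral.integral_const_mul]
    linarith
  -- the integrals through the excesses
  have hI : ∫ t in (0 : ℝ)..1, F t ^ 2 = 2 / 3 + total F := by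
    simp only [total, excess]
    rw [intervalIntegral.integral_sub (hP 2) (Continuous.intervalIntegrable (by fun_prop) _ _),
      intervalIntegral.integral_sub intervalIntegrable_const
        (Continuous.intervalIntegrable (by fun_prop) _ _), integral_pow]
    norm_num
  have hJ : ∫ t in (0 : ℝ)..1, F t ^ 3 = 3 * π / 16 + cubes F := by
    rw [cubes, intervalIntegral.integral_sub (hP 3) (hS 3), integral_sqrt_cube]
    ring
  have hI0 : ∫ t in (0 : ℝ)..1, √(1 - t ^ 2) ^ 2 = 2 / 3 := by
    rw [intervalIntegral.integral_congr (g := fun t : ℝ => 1 - t ^ 2) fun t ht => by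
      rw [uIcc_of_le zero_le_one] at ht
      exact sq_sqrt (by nlinarith [ht.1, ht.2])]
    rw [intervalIntegral.integral_sub intervalIntegrable_const
      (Continuous.intervalIntegrable (by fun_prop) _ _), integral_pow]
    norm_num
  have hT0 : 0 ≤ total F := hF.integral_nonneg le_rfl zero_le_one le_rfl
  set T := total F with hT
  set U := cubes F with hU
  have eL : (∫ t in (-1 : ℝ)..1, semi t ^ (3 - 1)) ^ 3 * (∫ t in (-1 : ℝ)..1, f t ^ 3) ^ (3 - 1) =
      (4 / 3) ^ 3 * (3 * π / 8) ^ 2 * (1 + 16 * U / (3 * π)) ^ 2 := by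
    rw [show 3 - 1 = 2 from rfl, ek, esk 2 (by norm_num), hI0, hJ]
    field_simp
    ring
  have eR : (∫ t in (-1 : ℝ)..1, f t ^ (3 - 1)) ^ 3 * (∫ t in (-1 : ℝ)..1, semi t ^ 3) ^ (3 - 1) =
      (4 / 3) ^ 3 * (3 * π / 8) ^ 2 * (1 + 3 * T / 2) ^ 3 := by
    rw [show 3 - 1 = 2 from rfl, ek, esk 3 (by norm_num), hI, integral_sqrt_cube]
    ring
  have hc : 0 < (4 / 3 : ℝ) ^ 3 * (3 * π / 8) ^ 2 := by positivity
  rcases eq_or_lt_of_le hT0 with hT1 | hT1
  · -- no excess: the profile is the semicircle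
    have hzero : ∀ t ∈ Ico (0 : ℝ) 1, f t = semi t := by
      intro z hz
      by_contra hne
      have hzI : ∀ t ∈ Ico (0 : ℝ) 1, t ∈ Ioo (-1 : ℝ) 1 := fun t ht => ⟨by linarith [ht.1], ht.2⟩
      have hgt : semi z < f z := lt_of_le_of_ne (hf.2.2 z (hzI z hz)) (Ne.symm hne)
      have hcont : ContinuousOn (fun t => f t ^ 2 - (1 - t ^ 2)) (Ioo (-1) 1) := by
        have h := hf.1.continuousOn_interior
        rw [interior_Ioo] at h
        exact (h.pow 2).sub (Continuous.continuousOn (by fun_prop))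
      set w := (1 + z) / 2 with hw
      have hzw : z < w := by linarith [hz.2]
      have hw1 : w < 1 := by linarith [hz.2]
      have hin : ∀ t ∈ Icc z w, t ∈ Ico (0 : ℝ) 1 := fun t ht =>
        ⟨hz.1.trans ht.1, ht.2.trans_lt hw1⟩
      have heq : EqOn (excess F) (fun t => f t ^ 2 - (1 - t ^ 2)) (Icc z w) := fun t ht => by
        simp [excess, hFdef, cut, (hin t ht).2]
      have hpos : 0 < ∫ t in z..w, excess F t := by
        refine intervalIntegral.integral_pos hzw
          ((hcont.mono fun t ht => hzI t (hin t ht)).congr heq)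
          (fun t ht => hF.excess_nonneg ⟨(hin t ⟨ht.1.le, ht.2⟩).1, (hin t ⟨ht.1.le, ht.2⟩).2.le⟩)
          ⟨z, ⟨le_rfl, hzw.le⟩, ?_⟩
        rw [heq ⟨le_rfl, hzw.le⟩]
        have h1 : semi z ^ 2 = 1 - z ^ 2 := by
          simp only [semi]
          exact sq_sqrt (by nlinarith [hz.1, hz.2])
        have h2 : semi z ^ 2 < f z ^ 2 := pow_lt_pow_left₀ hgt (sqrt_nonneg _) two_ne_zero
        show 0 < f z ^ 2 - (1 - z ^ 2)
        linarith
      have hle : ∫ t in z..w, excess F t ≤ T := by
        rw [hT, total, ← integral_add_adjacent_intervals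
          (hF.intervalIntegrable_excess le_rfl hz.1 hz.2.le)
          (hF.intervalIntegrable_excess hz.1 hz.2.le le_rfl),
          ← integral_add_adjacent_intervals
            (hF.intervalIntegrable_excess hz.1 hzw.le hw1.le)
            (hF.intervalIntegrable_excess (hz.1.trans hzw.le) hw1.le le_rfl)]
        linarith [hF.integral_nonneg le_rfl hz.1 hz.2.le,
          hF.integral_nonneg (hz.1.trans hzw.le) hw1.le le_rfl]
      linarith
    have hfs : ∀ t ∈ Ioo (-1 : ℝ) 1, f t = semi t := by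
      intro t ht
      rcases le_total 0 t with h0 | h0
      · exact hzero t ⟨h0, ht.2⟩
      · rw [← hf.2.1 t ht, hzero (-t) ⟨by linarith, by linarith [ht.1]⟩]
        simp [semi]
    have hU0 : U = 0 := by
      rw [hU, cubes, intervalIntegral.integral_congr (g := fun _ => (0 : ℝ)) fun t ht => ?_]
      · simp
      · rw [uIcc_of_le zero_le_one] at ht
        rcases eq_or_lt_of_le ht.2 with rfl | h1
        · simp [hFdef, cut]
        · simp [hFdef, cut, h1, hfs t ⟨by linarith [ht.1], h1⟩, semi]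
    refine ⟨?_, fun _ => hfs⟩
    rw [eL, eR, hU0, ← hT1]
    norm_num
  · have hk := hF.key hB hT1
    refine ⟨?_, fun he => absurd he ?_⟩
    · rw [eL, eR]
      exact mul_le_mul_of_nonneg_left hk.le hc.le
    · rw [eR, eL]
      exact (mul_lt_mul_of_pos_left hk hc).ne'

/-- The key statement in dimension four. -/
theorem keyStmt_four : All.KeyStmt 4 :=
  All.keyStmt_of_mixed (m := 3) (by norm_num) (fun _ => zero_le_one) (fun _ => le_rfl)
    (fun _ => le_rfl) (Three.petty_three_of_profile Three.profileStmt).1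
    fun _ hf h => profileBound hf h

/-- Petty's inequality with its equality case in dimension four. -/
theorem petty_four : All.PettyAt 4 ∧ All.PettyEqAt 4 :=
  All.petty_of_key (by norm_num) keyStmt_four

end Vale.Agent.P237.Four
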