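import Vale.Agent.P237.Four.Final
import Vale.Agent.P237.All.Assemble

/-!
P237: Petty's conjecture in every dimension from certificates for slices of dimension at least
four, dimension four itself being proved.
-/

noncomputable section

open MeasureTheory Set Real intervalIntegral

namespace Vale.Agent.P237.All

open Transport

/-- Certificates at every common integral above that of the ball, from slices of dimension four. -/
def CertsFromFour : Prop :=
  ∀ p : ℕ, 3 ≤ p → ∀ J : ℝ, 2 * mass (p + 1) semi 1 < J → HasCert p J

/-- The profile bound at one slice dimension from its certificates. -/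
theorem profileBound_of_certsAt {p : ℕ} (hp : 2 ≤ p)
    (H : ∀ J : ℝ, 2 * mass (p + 1) semi 1 < J → HasCert p J) {f : ℝ → ℝ} (hf : IsProfile f)
    (hmix : MixedTest (p + 1) (fun J => (weight p J).1) (fun J => (weight p J).2.1)
      (fun J => (weight p J).2.2) f) : ProfileBound (p + 1) f := by
  set J := ∫ t in (-1 : ℝ)..1, f t ^ (p + 1) with hJ
  rcases lt_or_ge (2 * mass (p + 1) semi 1) J with hlt | hge
  · obtain ⟨C⟩ := weight_cert p J (H J hlt)
    exact profileBound_of_cert (by omega) hf hmix C
  · rw [hJ, Transport.integral_even hf] at hge
    have heq := eq_semi_of_integral hf (q := p + 1) (by omega) (by linarith)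
    have hI : ∀ q, ∫ t in (-1 : ℝ)..1, f t ^ q = ∫ t in (-1 : ℝ)..1, semi t ^ q := by
      intro q
      rw [intervalIntegral.integral_of_le (by norm_num),
        intervalIntegral.integral_of_le (by norm_num),
        integral_Ioc_eq_integral_Ioo, integral_Ioc_eq_integral_Ioo]
      exact setIntegral_congr_fun measurableSet_Ioo fun t ht => by rw [heq t ht]
    simp only [ProfileBound, hI]
    exact ⟨le_rfl, fun _ => heq⟩

/-- Petty's conjecture from the certificates for slices of dimension at least four. -/
theorem petty_all_of_certs_from_four (H : CertsFromFour) : PettyAll := by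
  refine petty_all (Three.petty_three_of_profile Three.profileStmt) fun m hm hP => ?_
  rcases eq_or_lt_of_le hm with rfl | h4
  · exact Four.keyStmt_four
  obtain ⟨p, rfl⟩ : ∃ p, m = p + 1 := ⟨m - 1, by omega⟩
  exact keyStmt_of_mixed (by omega) (a := fun J => (weight p J).1) (b := fun J => (weight p J).2.1)
    (d := fun J => (weight p J).2.2) (fun J => (weight_nonneg p J).1)
    (fun J => (weight_nonneg p J).2.1) (fun J => (weight_nonneg p J).2.2) hP
    fun f hf hmix => profileBound_of_certsAt (by omega) (H p (by omega)) hf hmix

end Vale.Agent.P237.All
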