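import Vale.Agent.P237.Four.Profile

/-!
P237, dimension four: the integrated bound on the seven ranges of the whole excess, against the
ball value.
-/

noncomputable section

open MeasureTheory Set Real intervalIntegral

namespace Vale.Agent.P237.Four

/-- A bound on the cubes strictly inside the profile inequality. -/
theorem small_enough {U β T : ℝ} (hU : 0 ≤ U) (h : 10000 * U ≤ β)
    (hp : (1 + β / 5890) ^ 2 < (1 + 3 * T / 2) ^ 3) :
    (1 + 16 * U / (3 * π)) ^ 2 < (1 + 3 * T / 2) ^ 3 := by
  refine lt_of_le_of_lt (pow_le_pow_left₀ (by positivity) ?_ 2) hp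
  have h1 : 16 * U / (3 * π) ≤ β / 5890 := by
    rw [div_le_div_iff₀ (by positivity) (by norm_num)]
    nlinarith [Real.pi_gt_d4, mul_nonneg hU Real.pi_pos.le]
  linarith

variable {F : ℝ → ℝ}

theorem Half.cubes_nonneg (hF : Half F) : 0 ≤ cubes F := by
  refine intervalIntegral.integral_nonneg zero_le_one fun t ht => sub_nonneg.2 ?_
  rcases eq_or_lt_of_le ht.2 with rfl | h
  · simp [hF.top]
  · exact pow_le_pow_left₀ (sqrt_nonneg _) (hF.above t ⟨ht.1, h⟩) 3

/-- The profile inequality with the excesses, strict away from the ball. -/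
theorem Half.key (hF : Half F) (hB : Tested F) (hT : 0 < total F) :
    (1 + 16 * cubes F / (3 * π)) ^ 2 < (1 + 3 * total F / 2) ^ 3 := by
  have hU := hF.cubes_nonneg
  set T := total F with hTdef
  rcases le_total (300 * T) (12 / 5) with t0 | t0
  · have h := hF.one_line hB (certified_of cert2 cert3 (by norm_num)) (by norm_num)
      (by rw [← hTdef]; push_cast; linarith) (Or.inr (by rw [← hTdef]; push_cast; linarith))
    rw [← hTdef] at h
    push_cast at h
    refine small_enough hU h ?_
    nlinarith [mul_pos hT hT, mul_nonneg (mul_pos hT hT).le (sub_nonneg.2 t0), mul_pos hT hT,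
      mul_nonneg hT.le (sub_nonneg.2 t0)]
  rcases le_total (300 * T) 28 with t1 | t1
  · have h := hF.two_lines hB (certified_of cert0 cert1 (by norm_num))
      (certified_of cert2 cert3 (by norm_num)) (by norm_num)
      rfl ⟨rfl, rfl⟩ (by rw [← hTdef]; push_cast; linarith)
      (Or.inr (by rw [← hTdef]; push_cast; linarith)) (g := 718 / 1000 * T - 3 / 1000)
      (by linarith) (by rw [← hTdef]; linarith)
    rw [← hTdef] at h
    push_cast at h
    refine small_enough hU h ?_
    nlinarith [mul_nonneg (sub_nonneg.2 t0) (sub_nonneg.2 t1),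
      mul_nonneg (mul_nonneg (sub_nonneg.2 t0) (sub_nonneg.2 t1)) hT.le,
      mul_nonneg (mul_nonneg (sub_nonneg.2 t0) (sub_nonneg.2 t1)) (sq_nonneg T), mul_pos hT hT]
  rcases le_total (300 * T) 40 with t2 | t2
  · have h := hF.two_lines hB (certified_of cert4 cert5 (by norm_num))
      (certified_of cert6 cert7 (by norm_num)) (by norm_num)
      rfl ⟨rfl, rfl⟩ (by rw [← hTdef]; push_cast; linarith)
      (Or.inr (by rw [← hTdef]; push_cast; linarith)) (g := 784 / 1000 * T - 7 / 1000)
      (by linarith) (by rw [← hTdef]; linarith)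
    rw [← hTdef] at h
    push_cast at h
    refine small_enough hU h ?_
    nlinarith [mul_nonneg (sub_nonneg.2 t1) (sub_nonneg.2 t2),
      mul_nonneg (mul_nonneg (sub_nonneg.2 t1) (sub_nonneg.2 t2)) hT.le,
      mul_nonneg (mul_nonneg (sub_nonneg.2 t1) (sub_nonneg.2 t2)) (sq_nonneg T)]
  rcases le_total (300 * T) 50 with t3 | t3
  · have h := hF.two_lines hB (certified_of cert8 cert9 (by norm_num))
      (certified_of cert10 cert11 (by norm_num)) (by norm_num)
      rfl ⟨rfl, rfl⟩ (by rw [← hTdef]; push_cast; linarith)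
      (Or.inr (by rw [← hTdef]; push_cast; linarith)) (g := 844 / 1000 * T - 14 / 1000)
      (by linarith) (by rw [← hTdef]; linarith)
    rw [← hTdef] at h
    push_cast at h
    refine small_enough hU h ?_
    nlinarith [mul_nonneg (sub_nonneg.2 t2) (sub_nonneg.2 t3),
      mul_nonneg (mul_nonneg (sub_nonneg.2 t2) (sub_nonneg.2 t3)) hT.le,
      mul_nonneg (mul_nonneg (sub_nonneg.2 t2) (sub_nonneg.2 t3)) (sq_nonneg T)]
  rcases le_total (300 * T) 60 with t4 | t4
  · have h := hF.two_lines hB (certified_of cert12 cert13 (by norm_num))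
      (certified_of cert14 cert15 (by norm_num))
      (by norm_num) rfl ⟨rfl, rfl⟩ (by rw [← hTdef]; push_cast; linarith)
      (Or.inr (by rw [← hTdef]; push_cast; linarith)) (g := 920 / 1000 * T - 25 / 1000)
      (by linarith) (by rw [← hTdef]; linarith)
    rw [← hTdef] at h
    push_cast at h
    refine small_enough hU h ?_
    nlinarith [mul_nonneg (sub_nonneg.2 t3) (sub_nonneg.2 t4),
      mul_nonneg (mul_nonneg (sub_nonneg.2 t3) (sub_nonneg.2 t4)) hT.le,
      mul_nonneg (mul_nonneg (sub_nonneg.2 t3) (sub_nonneg.2 t4)) (sq_nonneg T)]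
  rcases le_total (300 * T) 80 with t5 | t5
  · have h := hF.two_lines hB (certified_of cert16 cert17 (by norm_num))
      (certified_of cert18 cert19 (by norm_num))
      (by norm_num) rfl ⟨rfl, rfl⟩ (by rw [← hTdef]; push_cast; linarith)
      (Or.inr (by rw [← hTdef]; push_cast; linarith)) (g := 1044 / 1000 * T - 47 / 1000)
      (by linarith) (by rw [← hTdef]; linarith)
    rw [← hTdef] at h
    push_cast at h
    refine small_enough hU h ?_
    nlinarith [mul_nonneg (sub_nonneg.2 t4) (sub_nonneg.2 t5),
      mul_nonneg (mul_nonneg (sub_nonneg.2 t4) (sub_nonneg.2 t5)) hT.le,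
      mul_nonneg (mul_nonneg (sub_nonneg.2 t4) (sub_nonneg.2 t5)) (sq_nonneg T)]
  rcases le_total (300 * T) 200 with t6 | t6
  · have h := hF.two_lines hB (certified_of cert20 cert21 (by norm_num))
      (certified_of cert22 cert23 (by norm_num))
      (by norm_num) rfl ⟨rfl, rfl⟩ (by rw [← hTdef]; push_cast; linarith)
      (Or.inr (by rw [← hTdef]; push_cast; linarith))
      (g := min T (1055 / 1000 * T - 49 / 1000))
      (le_min hT.le (by linarith)) (by rw [← hTdef]; exact min_le_left _ _)
    rw [← hTdef] at h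
    push_cast at h
    rw [min_eq_right (by linarith)] at h
    refine small_enough hU h ?_
    nlinarith [mul_nonneg (sub_nonneg.2 t5) (sub_nonneg.2 t6),
      mul_nonneg (mul_nonneg (sub_nonneg.2 t5) (sub_nonneg.2 t6)) hT.le,
      mul_nonneg (mul_nonneg (sub_nonneg.2 t5) (sub_nonneg.2 t6)) (sq_nonneg T)]
  rcases le_total T 6 with t7 | t7
  · have h := hF.one_line hB (certified_of cert24 cert25 (by norm_num)) (by norm_num)
      (by rw [← hTdef]; push_cast; linarith) (Or.inl rfl)
    rw [← hTdef] at h
    push_cast at h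
    refine small_enough hU h ?_
    nlinarith [mul_nonneg (sub_nonneg.2 t6) (sub_nonneg.2 t7),
      mul_nonneg (mul_nonneg (sub_nonneg.2 t6) (sub_nonneg.2 t7)) hT.le,
      mul_nonneg (mul_nonneg (sub_nonneg.2 t6) (sub_nonneg.2 t7)) (sq_nonneg T)]
  · have h := hF.one_line hB (certified_of cert26 cert27 (by norm_num)) (by norm_num)
      (by rw [← hTdef]; push_cast; linarith) (Or.inl rfl)
    rw [← hTdef] at h
    push_cast at h
    refine small_enough hU h ?_
    nlinarith [mul_nonneg (sub_nonneg.2 t7) (sq_nonneg T), mul_pos hT hT]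

end Vale.Agent.P237.Four
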