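import Vale.Agent.P237.Four.Lines

/-!
    P237, dimension four: the tests of the first three lines, run by the kernel. The trees were
      found by
`notes/P237n4`.
-/

namespace Vale.Agent.P237.Four

theorem cert0 : lineCheck false ⟨40, 13269, 13687, 0, 0, 28⟩
    [(0, 46, 570)]
    []
    (.node false (.target 0) (.node true (.target 0) (.node false (.target 0) (.node true
      (.target 0) (.node false (.target 0) (.target 0)))))) = true := by
  decide +kernel

theorem cert1 : lineCheck true ⟨40, 13269, 13687, 0, 0, 28⟩
    [(0, 68, 700)]
    [(80, 0)]
    (.node false (.target 0) (.node true (.node false (.target 0) (.node true (.node false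
      (.target 0) (.node true (.node false (.target 0) (.node true (.target 0) (.node false
      (.target 0) (.node true (.node false (.target 0) (.node true (.target 0) (.gate 0))) (.gate
      0))))) (.gate 0))) (.gate 0))) (.target 0))) = true := by
  decide +kernel

theorem cert2 : lineCheck false ⟨40, 13113, 0, 34850, 0, 28⟩
    [(0, 55, 700)]
    [(55, 0)]
    (.node false (.node true (.target 0) (.node true (.target 0) (.node true (.target 0) (.gate
      2)))) (.node true (.node false (.node false (.target 0) (.gate 0)) (.gate 0)) (.node false
      (.node true (.target 0) (.node true (.target 0) (.node true (.node false (.gate 2) (.node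
      false (.node true (.target 0) (.node true (.node false (.gate 2) (.target 0)) (.gate 2)))
      (.target 0))) (.node false (.gate 2) (.node false (.gate 2) (.node false (.gate 2) (.node
      false (.node false (.gate 2) (.target 0)) (.target 0)))))))) (.node true (.target 0) (.node
      false (.node false (.target 0) (.node true (.target 0) (.target 0))) (.node false (.node
      true (.target 0) (.target 0)) (.target 0))))))) = true := by
  decide +kernel

theorem cert3 : lineCheck true ⟨40, 13113, 0, 34850, 0, 28⟩
    [(2, 50, 0), (0, 90, 560)]
    [(90, 560), (110, 0)]
    (.node true (.node false (.gate 0) (.node false (.gate 0) (.node true (.target 1) (.gate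
      0)))) (.node true (.gate 1) (.node false (.node true (.node true (.gate 1) (.target 0))
      (.target 0)) (.target 0)))) = true := by
  decide +kernel

theorem cert4 : lineCheck false ⟨40, 13355, 11090, 319, 28, 40⟩
    [(0, 57, 600)]
    []
    (.node false (.target 0) (.node true (.target 0) (.node false (.target 0) (.node true
      (.target 0) (.node false (.target 0) (.target 0)))))) = true := by
  decide +kernel

theorem cert5 : lineCheck true ⟨40, 13355, 11090, 319, 28, 40⟩
    [(0, 80, 700)]
    [(80, 0)]
    (.node false (.target 0) (.node true (.node false (.target 0) (.node true (.node false
      (.target 0) (.node true (.node false (.target 0) (.node true (.target 0) (.node false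
      (.target 0) (.node true (.target 0) (.gate 0))))) (.gate 0))) (.gate 0))) (.target 0))) =
      true := by
  decide +kernel

theorem cert6 : lineCheck false ⟨40, 13005, 875, 37375, 28, 40⟩
    [(1, 40, 540), (0, 55, 800)]
    [(55, 0)]
    (.node false (.node true (.target 0) (.node true (.target 0) (.node true (.target 1) (.gate
      2)))) (.node true (.node false (.node false (.target 0) (.gate 0)) (.gate 0)) (.node false
      (.node false (.node true (.target 0) (.node true (.target 1) (.node true (.node true
      (.target 1) (.node true (.node false (.gate 2) (.target 1)) (.node false (.gate 2) (.node
      false (.gate 2) (.node false (.gate 2) (.target 1)))))) (.gate 2)))) (.node true (.target 0)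
      (.node false (.node true (.target 0) (.node true (.target 1) (.node false (.node true (.node
      true (.node false (.gate 2) (.node false (.node true (.target 1) (.gate 2)) (.node false
      (.node true (.target 1) (.gate 2)) (.target 1)))) (.gate 2)) (.gate 2)) (.node true (.node
      false (.node true (.target 1) (.gate 2)) (.target 1)) (.gate 2))))) (.target 1)))) (.node
      true (.target 0) (.node false (.node true (.target 0) (.target 0)) (.node true (.target 0)
      (.target 0))))))) = true := by
  decide +kernel

theorem cert7 : lineCheck true ⟨40, 13005, 875, 37375, 28, 40⟩
    [(2, 50, 0), (0, 70, 660)]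
    [(66, 660), (110, 660)]
    (.node true (.node false (.gate 1) (.node false (.gate 0) (.node true (.target 1) (.gate
      1)))) (.node true (.gate 1) (.node false (.gate 1) (.target 0)))) = true := by
  decide +kernel

theorem cert8 : lineCheck false ⟨40, 13432, 9750, 306, 40, 50⟩
    [(0, 63, 630)]
    []
    (.node false (.target 0) (.node true (.target 0) (.node false (.target 0) (.node true
      (.target 0) (.target 0))))) = true := by
  decide +kernel

theorem cert9 : lineCheck true ⟨40, 13432, 9750, 306, 40, 50⟩
    [(0, 63, 630)]
    [(63, 630)]
    (.node false (.node true (.node false (.node true (.gate 0) (.target 0)) (.target 0))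
      (.target 0)) (.node true (.node false (.target 0) (.node true (.node false (.target 0)
      (.node true (.node false (.target 0) (.node true (.target 0) (.node false (.target 0) (.node
      true (.target 0) (.node false (.target 0) (.node true (.target 0) (.gate 0))))))) (.gate
      0))) (.node false (.target 0) (.node true (.gate 0) (.target 0))))) (.target 0))) = true :=
      by
  decide +kernel

end Vale.Agent.P237.Four
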