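import Vale.Agent.P237.Four.Lines

/-!
P237, dimension four: the tests of the middle lines, run by the kernel. The trees were found by
`notes/P237n4`.
-/

namespace Vale.Agent.P237.Four

theorem cert10 : lineCheck false ⟨40, 12772, 2188, 41094, 40, 50⟩
    [(1, 25, 530), (0, 55, 800), (1, 55, 800), (0, 70, 800)]
    [(55, 0)]
    (.node false (.node true (.target 0) (.node true (.target 1) (.node true (.target 1) (.node
      true (.node true (.target 1) (.node true (.target 3) (.gate 2))) (.gate 2))))) (.node true
      (.node false (.node false (.target 0) (.gate 0)) (.gate 0)) (.node false (.node false (.node
      true (.target 0) (.node true (.target 1) (.node true (.node false (.node true (.target 1)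
      (.node true (.target 1) (.node false (.gate 2) (.target 3)))) (.target 1)) (.node false
      (.gate 2) (.node true (.node false (.node true (.node false (.node true (.target 3) (.gate
      2)) (.target 3)) (.gate 2)) (.node false (.node true (.target 3) (.node true (.node false
      (.node false (.gate 2) (.target 3)) (.target 3)) (.gate 2))) (.target 3))) (.gate 2))))))
      (.node true (.target 0) (.node false (.target 3) (.target 2)))) (.node true (.target 0)
      (.node false (.node true (.target 0) (.node true (.node false (.target 2) (.target 0))
      (.target 2))) (.node true (.target 0) (.target 0))))))) = true := by
  decide +kernel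

theorem cert11 : lineCheck true ⟨40, 12772, 2188, 41094, 40, 50⟩
    [(2, 50, 0), (1, 72, 720), (0, 110, 720)]
    [(72, 720), (110, 720)]
    (.node true (.node false (.gate 0) (.node false (.node false (.gate 0) (.node false (.gate
      0) (.target 2))) (.node true (.target 1) (.target 2)))) (.node true (.gate 1) (.node false
      (.gate 1) (.target 0)))) = true := by
  decide +kernel

theorem cert12 : lineCheck false ⟨40, 13549, 8500, 63, 50, 60⟩
    [(0, 65, 660)]
    []
    (.node false (.target 0) (.node true (.target 0) (.node false (.target 0) (.target 0)))) =
      true := by
  decide +kernel

theorem cert13 : lineCheck true ⟨40, 13549, 8500, 63, 50, 60⟩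
    [(0, 66, 660)]
    [(66, 660)]
    (.node false (.target 0) (.node true (.node false (.target 0) (.node true (.node false
      (.target 0) (.node true (.node false (.target 0) (.node true (.target 0) (.node false
      (.target 0) (.node true (.target 0) (.node false (.target 0) (.node true (.target 0) (.node
      false (.target 0) (.node true (.target 0) (.node false (.target 0) (.node true (.target 0)
      (.node false (.target 0) (.node true (.target 0) (.node false (.target 0) (.node true
      (.target 0) (.gate 0))))))))))))))) (.gate 0))) (.node false (.target 0) (.node true (.gate
      0) (.target 0))))) (.target 0))) = true := by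
  decide +kernel

theorem cert14 : lineCheck false ⟨40, 12301, 4500, 46063, 50, 60⟩
    [(1, 40, 600), (0, 55, 600), (1, 70, 800), (0, 90, 800)]
    [(70, 0)]
    (.node false (.node true (.target 0) (.node false (.node true (.target 0) (.node true
      (.target 1) (.gate 2))) (.node true (.target 0) (.node true (.target 1) (.node true (.target
      3) (.node false (.gate 2) (.node true (.node true (.node true (.node false (.gate 2)
      (.target 3)) (.node false (.gate 2) (.node false (.gate 2) (.node false (.gate 2) (.target
      3))))) (.gate 2)) (.gate 2)))))))) (.node true (.node false (.node false (.target 0) (.gate
      0)) (.gate 0)) (.node false (.node true (.target 0) (.node true (.target 0) (.node true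
      (.node false (.node false (.target 3) (.target 2)) (.target 2)) (.node false (.node false
      (.node true (.node false (.node true (.target 3) (.node true (.node false (.node true (.node
      false (.gate 2) (.target 3)) (.gate 2)) (.node false (.node false (.node false (.node true
      (.target 3) (.gate 2)) (.target 3)) (.target 3)) (.target 3))) (.gate 2))) (.node false
      (.node false (.node true (.target 3) (.node false (.node false (.node true (.target 3)
      (.node true (.target 3) (.gate 2))) (.target 3)) (.target 3))) (.target 3)) (.target 3)))
      (.node false (.gate 2) (.node false (.gate 2) (.target 3)))) (.node false (.target 3) (.node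
      true (.node true (.target 2) (.node false (.target 3) (.node false (.target 3) (.target
      2)))) (.target 3)))) (.node true (.target 2) (.node false (.node false (.target 3) (.target
      2)) (.target 2))))))) (.node true (.target 0) (.node false (.node true (.node true (.target
      0) (.node false (.target 0) (.target 0))) (.node false (.target 0) (.node true (.target 0)
      (.target 0)))) (.node true (.target 0) (.target 0))))))) = true := by
  decide +kernel

theorem cert15 : lineCheck true ⟨40, 12301, 4500, 46063, 50, 60⟩
    [(2, 50, 0), (1, 78, 780), (0, 110, 780), (1, 110, 780)]
    [(110, 780)]
    (.node true (.node false (.gate 0) (.node false (.node false (.node false (.gate 0) (.target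
      2)) (.node false (.target 2) (.target 3))) (.node false (.target 3) (.node true (.target 1)
      (.target 2))))) (.node true (.gate 0) (.node false (.gate 0) (.target 0)))) = true := by
  decide +kernel

theorem cert16 : lineCheck false ⟨38, 13696, 5813, 900, 60, 80⟩
    [(1, 70, 710)]
    []
    (.node false (.target 0) (.node true (.target 0) (.node false (.target 0) (.target 0)))) =
      true := by
  decide +kernel

theorem cert17 : lineCheck true ⟨38, 13696, 5813, 900, 60, 80⟩
    [(0, 104, 700), (1, 104, 700)]
    [(104, 0)]
    (.node false (.target 0) (.node true (.node false (.target 1) (.node true (.node false
      (.target 1) (.node true (.target 0) (.node false (.target 0) (.node true (.node false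
      (.target 0) (.node true (.target 0) (.gate 0))) (.gate 0))))) (.target 0))) (.target 0))) =
      true := by
  decide +kernel

end Vale.Agent.P237.Four
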