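import Vale.Agent.P237.Four.Lines

/-!
P237, dimension four: the tests of the last lines, run by the kernel. The trees were found by
`notes/P237n4`.
-/

namespace Vale.Agent.P237.Four

theorem cert18 : lineCheck false ⟨38, 11479, 7875, 49844, 60, 80⟩
    [(1, 40, 800), (0, 70, 800), (1, 70, 800)]
    []
    (.node false (.node true (.target 0) (.node false (.target 1) (.node true (.target 0) (.node
      false (.target 1) (.node true (.target 0) (.target 1)))))) (.node true (.node false (.node
      true (.gate 0) (.target 0)) (.gate 0)) (.node false (.node true (.target 0) (.node false
      (.node true (.target 0) (.node false (.node true (.target 2) (.node false (.node true (.node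
      false (.target 1) (.node true (.target 2) (.target 1))) (.target 1)) (.node true (.node
      false (.node true (.target 2) (.node false (.node true (.target 2) (.target 1)) (.node true
      (.target 2) (.node false (.target 1) (.target 2))))) (.target 2)) (.target 1)))) (.node true
      (.target 2) (.node false (.node true (.target 2) (.node false (.node true (.node false
      (.node true (.target 2) (.target 1)) (.node true (.target 2) (.target 1))) (.target 1))
      (.node true (.target 2) (.target 1)))) (.target 2))))) (.target 2))) (.node true (.target 0)
      (.node false (.node true (.target 0) (.node false (.target 0) (.node true (.target 0)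
      (.target 0)))) (.node true (.target 0) (.node false (.node true (.target 0) (.target 0))
      (.target 0)))))))) = true := by
  decide +kernel

theorem cert19 : lineCheck true ⟨38, 11479, 7875, 49844, 60, 80⟩
    [(2, 50, 0), (1, 70, 790), (0, 90, 790), (0, 110, 790), (1, 110, 790)]
    [(110, 790)]
    (.node true (.node false (.node false (.gate 0) (.node false (.gate 0) (.node false (.node
      false (.gate 0) (.target 3)) (.target 3)))) (.node false (.node false (.target 3) (.node
      false (.node false (.target 2) (.target 4)) (.target 4))) (.node false (.target 4) (.node
      true (.target 1) (.target 2))))) (.node true (.gate 0) (.node false (.gate 0) (.node false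
      (.gate 0) (.target 0))))) = true := by
  decide +kernel

theorem cert20 : lineCheck false ⟨38, 13586, 6000, 1487, 80, 200⟩
    [(1, 71, 720)]
    []
    (.node false (.target 0) (.target 0)) = true := by
  decide +kernel

theorem cert21 : lineCheck true ⟨38, 13586, 6000, 1487, 80, 200⟩
    [(0, 80, 720), (1, 80, 720)]
    []
    (.node true (.node false (.target 0) (.node true (.node true (.node true (.target 1)
      (.target 0)) (.target 0)) (.target 0))) (.target 0)) = true := by
  decide +kernel

theorem cert22 : lineCheck false ⟨38, 10918, 9000, 59250, 80, 200⟩
    [(0, 91, 930), (1, 91, 930), (0, 30, 930), (1, 30, 930), (1, 55, 930)]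
    []
    (.node false (.node true (.target 0) (.node false (.target 0) (.node true (.target 1) (.node
      false (.target 0) (.node true (.target 1) (.node false (.node false (.target 0) (.node true
      (.target 1) (.node true (.target 1) (.target 0)))) (.target 1))))))) (.node true (.node true
      (.gate 0) (.target 3)) (.node false (.target 4) (.node true (.target 3) (.target 3))))) =
      true := by
  decide +kernel

theorem cert23 : lineCheck true ⟨38, 10918, 9000, 59250, 80, 200⟩
    [(2, 50, 0), (0, 97, 970), (1, 80, 970)]
    [(97, 970)]
    (.node false (.node true (.node false (.node true (.target 1) (.gate 0)) (.node true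
      (.target 1) (.gate 0))) (.node false (.node true (.gate 0) (.node false (.node true (.gate
      0) (.target 0)) (.node true (.gate 0) (.target 0)))) (.node true (.gate 0) (.node false
      (.node true (.gate 0) (.target 0)) (.node true (.gate 0) (.target 0)))))) (.node true (.node
      false (.node true (.node false (.node true (.node false (.node true (.node false (.target 1)
      (.node true (.target 2) (.target 1))) (.target 1)) (.node true (.target 2) (.target 1)))
      (.target 1)) (.node true (.target 2) (.target 1))) (.target 1)) (.node true (.target 2)
      (.target 1))) (.node false (.node true (.gate 0) (.node false (.node true (.gate 0) (.target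
      0)) (.target 0))) (.node true (.node false (.gate 0) (.node true (.gate 0) (.target 0)))
      (.target 0))))) = true := by
  decide +kernel

theorem cert24 : lineCheck false ⟨38, 14500, 3300, 0, 0, 0⟩
    [(0, 75, 750)]
    []
    (.target 0) = true := by
  decide +kernel

theorem cert25 : lineCheck true ⟨38, 14500, 3300, 0, 0, 0⟩
    [(0, 113, 810)]
    []
    (.node true (.node true (.node true (.node false (.target 0) (.target 0)) (.target 0))
      (.target 0)) (.target 0)) = true := by
  decide +kernel

theorem cert26 : lineCheck false ⟨38, 23000, 0, 0, 0, 0⟩
    [(0, 81, 820)]
    []
    (.target 0) = true := by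
  decide +kernel

theorem cert27 : lineCheck true ⟨38, 23000, 0, 0, 0, 0⟩
    [(2, 50, 0)]
    []
    (.node true (.target 0) (.target 0)) = true := by
  decide +kernel

end Vale.Agent.P237.Four
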