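import Mathlib.Tactic

/-!
P237, dimension four: a subdivision test for nonnegativity of a polynomial in two variables with
integer coefficients on a gated part of the unit square, run by the kernel. The functions the kernel
runs are plain recursors; inside the subdivision a coefficient is a pair of naturals (the value being
their difference), so that a step only adds and shifts naturals.
-/

noncomputable section

namespace Vale.Agent.P237.Four

/-- Coefficient lists in the second variable, listed by the power of the first. -/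
structure Poly where
  rows : List (List ℤ)

/-- Evaluation of a coefficient list. -/
def ev (v : ℝ) : List ℤ → ℝ
  | [] => 0
  | c :: cs => c + v * ev v cs

/-- Evaluation of rows of coefficients. -/
def ev2 (u v : ℝ) : List (List ℤ) → ℝ
  | [] => 0
  | r :: rs => ev v r + u * ev2 u v rs

/-- Sum of coefficient lists. -/
def add (a : List ℤ) : List ℤ → List ℤ :=
  List.rec (fun b => b) (fun x xs ih b =>
    List.rec (x :: xs) (fun y ys _ => Int.add x y :: ih ys) b) a

/-- Sum of rows. -/
def add2 (a : List (List ℤ)) : List (List ℤ) → List (List ℤ) :=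
  List.rec (fun b => b) (fun x xs ih b =>
    List.rec (x :: xs) (fun y ys _ => add x y :: ih ys) b) a

/-- Multiple of a coefficient list. -/
def smul (k : ℤ) (a : List ℤ) : List ℤ := List.rec [] (fun x _ ih => Int.mul k x :: ih) a

/-- Multiple of rows. -/
def smul2 (k : ℤ) (a : List (List ℤ)) : List (List ℤ) :=
  List.rec [] (fun x _ ih => smul k x :: ih) a

/-- Product of coefficient lists. -/
def mul (a b : List ℤ) : List ℤ := List.rec [] (fun x _ ih => add (smul x b) (0 :: ih)) a

/-- A row times rows. -/
def rowMul (r : List ℤ) (b : List (List ℤ)) : List (List ℤ) :=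
  List.rec [] (fun x _ ih => mul r x :: ih) b

/-- Product of rows. -/
def mul2 (a b : List (List ℤ)) : List (List ℤ) :=
  List.rec [] (fun x _ ih => add2 (rowMul x b) ([] :: ih)) a

theorem ev_add (v : ℝ) : ∀ a b, ev v (add a b) = ev v a + ev v b
  | [], b => by simp [add, ev]
  | a :: as, [] => by simp [add, ev]
  | a :: as, b :: bs => by
    show ev v ((a + b) :: add as bs) = _
    simp [ev, ev_add v as bs]; ring

theorem ev2_add (u v : ℝ) : ∀ a b, ev2 u v (add2 a b) = ev2 u v a + ev2 u v b
  | [], b => by simp [add2, ev2]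
  | a :: as, [] => by simp [add2, ev2]
  | a :: as, b :: bs => by
    show ev2 u v (add a b :: add2 as bs) = _
    simp [ev2, ev_add, ev2_add u v as bs]; ring

theorem ev_smul (v : ℝ) (k : ℤ) : ∀ a, ev v (smul k a) = k * ev v a
  | [] => by simp [smul, ev]
  | a :: as => by
    show ev v ((k * a) :: smul k as) = _
    simp [ev, ev_smul v k as]; ring

theorem ev2_smul (u v : ℝ) (k : ℤ) : ∀ a, ev2 u v (smul2 k a) = k * ev2 u v a
  | [] => by simp [smul2, ev2]
  | a :: as => by
    show ev2 u v (smul k a :: smul2 k as) = _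
    simp [ev2, ev_smul, ev2_smul u v k as]; ring

theorem ev_mul (v : ℝ) : ∀ a b, ev v (mul a b) = ev v a * ev v b
  | [], b => by simp [mul, ev]
  | a :: as, b => by
    show ev v (add (smul a b) (0 :: mul as b)) = _
    simp [ev, ev_add, ev_smul, ev_mul v as b]; ring

theorem ev2_rowMul (u v : ℝ) (r : List ℤ) : ∀ b, ev2 u v (rowMul r b) = ev v r * ev2 u v b
  | [] => by simp [rowMul, ev2]
  | b :: bs => by
    show ev2 u v (mul r b :: rowMul r bs) = _
    simp [ev2, ev_mul, ev2_rowMul u v r bs]; ring

theorem ev2_mul (u v : ℝ) : ∀ a b, ev2 u v (mul2 a b) = ev2 u v a * ev2 u v b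
  | [], b => by simp [mul2, ev2]
  | a :: as, b => by
    show ev2 u v (add2 (rowMul a b) ([] :: mul2 as b)) = _
    simp [ev2, ev, ev2_add, ev2_rowMul, ev2_mul u v as b]; ring

namespace Poly

/-- The value at a point. -/
def eval (p : Poly) (u v : ℝ) : ℝ := ev2 u v p.rows

instance : Add Poly := ⟨fun a b => ⟨add2 a.rows b.rows⟩⟩
instance : Sub Poly := ⟨fun a b => ⟨add2 a.rows (smul2 (-1) b.rows)⟩⟩
instance : Mul Poly := ⟨fun a b => ⟨mul2 a.rows b.rows⟩⟩
instance : IntCast Poly := ⟨fun k => ⟨[[k]]⟩⟩

/-- The first variable. -/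
def X : Poly := ⟨[[], [1]]⟩

/-- The second variable. -/
def Y : Poly := ⟨[[0, 1]]⟩

variable (u v : ℝ) (a b : Poly)

@[simp] theorem eval_add : (a + b).eval u v = a.eval u v + b.eval u v := ev2_add u v _ _
@[simp] theorem eval_sub : (a - b).eval u v = a.eval u v - b.eval u v := by
  show ev2 u v (add2 a.rows (smul2 (-1) b.rows)) = _
  rw [ev2_add, ev2_smul]; simp [eval]; ring
@[simp] theorem eval_mul : (a * b).eval u v = a.eval u v * b.eval u v := ev2_mul u v _ _
@[simp] theorem eval_intCast (k : ℤ) : ((k : Poly)).eval u v = k := by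
  show ev2 u v [[k]] = _; simp [ev2, ev]
@[simp] theorem eval_X : X.eval u v = u := by simp [X, eval, ev2, ev]
@[simp] theorem eval_Y : Y.eval u v = v := by simp [Y, eval, ev2, ev]

end Poly

/-- A coefficient as a difference of naturals. -/
abbrev Coef : Type := ℕ × ℕ

/-- Its value. -/
def cv (c : Coef) : ℝ := (c.1 : ℝ) - c.2

/-- Sum of coefficients. -/
def cadd (c d : Coef) : Coef := (Nat.add c.1 d.1, Nat.add c.2 d.2)

theorem cv_cadd (c d : Coef) : cv (cadd c d) = cv c + cv d := by
  simp [cv, cadd]; ring

/-- A coefficient times `2 ^ j`. -/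
def cdbl (j : ℕ) (c : Coef) : Coef := (Nat.shiftLeft c.1 j, Nat.shiftLeft c.2 j)

theorem cv_cdbl (j : ℕ) (c : Coef) : cv (cdbl j c) = 2 ^ j * cv c := by
  simp [cv, cdbl, Nat.shiftLeft_eq]; ring

/-- Evaluation in homogeneous coordinates. -/
def hev (x w : ℝ) : List Coef → ℝ
  | [] => 0
  | b :: bs => cv b * w ^ bs.length + x * hev x w bs

/-- Evaluation of rows in two pairs of homogeneous coordinates. -/
def hev2 (x w a b : ℝ) : List (List Coef) → ℝ
  | [] => 0
  | r :: rs => hev a b r * w ^ rs.length + x * hev2 x w a b rs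

/-- The image of a list. -/
def mapR {α β : Type} (f : α → β) (l : List α) : List β :=
  List.rec [] (fun x _ ih => f x :: ih) l

theorem mapR_eq {α β : Type} (f : α → β) : ∀ l, mapR f l = l.map f
  | [] => rfl
  | x :: xs => congrArg (f x :: ·) (mapR_eq f xs)

/-- A test of every entry. -/
def allR {α : Type} (f : α → Bool) (l : List α) : Bool := List.rec true (fun x _ ih => f x && ih) l

theorem allR_iff {α : Type} (f : α → Bool) : ∀ l, allR f l = true ↔ ∀ x ∈ l, f x = true
  | [] => by simp [allR]
  | x :: xs => by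
    show (f x && allR f xs) = true ↔ _
    simp [allR_iff f xs]

/-- A list backwards. -/
def rev {α : Type} (l : List α) : List α :=
  List.rec (fun acc => acc) (fun x _ ih acc => ih (x :: acc)) l []

theorem rev_eq {α : Type} (l : List α) : rev l = l.reverse := by
  have h : ∀ (l acc : List α), List.rec (motive := fun _ => List α → List α) (fun acc => acc)
      (fun x _ ih acc => ih (x :: acc)) l acc = l.reverse ++ acc := by
    intro l
    induction l with
    | nil => simp
    | cons x xs ih => intro acc; simp [ih]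
  simpa [rev] using h l []

/-- One Horner step of the substitution `x ↦ x + w`. -/
def lin (p : Coef) (q : List Coef) : List Coef :=
  List.rec (fun p => [p]) (fun x _ ih p => cadd p x :: ih x) q p

/-- The substitution `x ↦ x + w`. -/
def shl (bs : List Coef) : List Coef := List.rec [] (fun x _ ih => lin x ih) bs

/-- The substitution `x ↦ 2 x`, times `2 ^ j`. -/
def sc (j : ℕ) (bs : List Coef) : List Coef :=
  List.rec (fun _ => []) (fun x _ ih j => cdbl j x :: ih (Nat.succ j)) bs j

theorem lin_cons (p q : Coef) (qs : List Coef) : lin p (q :: qs) = cadd p q :: lin q qs := rfl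

theorem shl_cons (b : Coef) (bs : List Coef) : shl (b :: bs) = lin b (shl bs) := rfl

theorem sc_cons (j : ℕ) (b : Coef) (bs : List Coef) :
    sc j (b :: bs) = cdbl j b :: sc (j + 1) bs := rfl

theorem length_lin : ∀ p q, (lin p q).length = q.length + 1
  | p, [] => rfl
  | p, q :: qs => by simp [lin_cons, length_lin _ qs]

theorem length_shl : ∀ bs, (shl bs).length = bs.length
  | [] => rfl
  | b :: bs => by simp [shl_cons, length_lin, length_shl bs]

theorem length_sc : ∀ j bs, (sc j bs).length = bs.length
  | _, [] => rfl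
  | j, b :: bs => by simp [sc_cons, length_sc (j + 1) bs]

theorem hev_lin (x w : ℝ) :
    ∀ p q, hev x w (lin p q) = cv p * w ^ q.length + (x + w) * hev x w q
  | p, [] => by simp [lin, hev]
  | p, q :: qs => by
    simp only [lin_cons, hev, length_lin, hev_lin x w _ qs, List.length_cons, cv_cadd, pow_succ]
    ring

theorem hev_shl (x w : ℝ) : ∀ bs, hev x w (shl bs) = hev (x + w) w bs
  | [] => rfl
  | b :: bs => by simp [shl_cons, hev, hev_lin, length_shl, hev_shl x w bs]

theorem hev_sc (x w : ℝ) : ∀ j bs, hev x w (sc j bs) = 2 ^ j * hev (2 * x) w bs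
  | _, [] => by simp [sc, hev]
  | j, b :: bs => by
    simp only [sc_cons, hev, length_sc, hev_sc x w (j + 1) bs, cv_cdbl, pow_succ]
    ring

theorem hev_concat (x w : ℝ) (c : Coef) :
    ∀ bs, hev x w (bs ++ [c]) = w * hev x w bs + cv c * x ^ bs.length
  | [] => by simp [hev]
  | b :: bs => by simp [hev, hev_concat x w c bs, pow_succ]; ring

theorem hev_reverse (x w : ℝ) : ∀ bs, hev x w bs.reverse = hev w x bs
  | [] => rfl
  | b :: bs => by
    rw [List.reverse_cons, hev_concat, hev_reverse x w bs, List.length_reverse]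
    simp [hev]; ring

/-- All rows have the same length. -/
def Rect (m : ℕ) (p : List (List Coef)) : Prop := ∀ r ∈ p, r.length = m

/-- The sum of two rows of one length. -/
def addRow (a : List Coef) : List Coef → List Coef :=
  List.rec (fun _ => []) (fun x _ ih b => List.rec [] (fun y ys _ => cadd x y :: ih ys) b) a

theorem addRow_cons (a b : Coef) (as bs : List Coef) :
    addRow (a :: as) (b :: bs) = cadd a b :: addRow as bs := rfl

theorem length_addRow : ∀ a b : List Coef, a.length = b.length → (addRow a b).length = a.length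
  | [], [], _ => rfl
  | a :: as, b :: bs, h => by simp [addRow_cons, length_addRow as bs (by simpa using h)]

theorem hev_addRow (x w : ℝ) :
    ∀ a b : List Coef, a.length = b.length → hev x w (addRow a b) = hev x w a + hev x w b
  | [], [], _ => by simp [addRow, hev]
  | a :: as, b :: bs, h => by
    have h' : as.length = bs.length := by simpa using h
    simp [addRow_cons, hev, length_addRow as bs h', hev_addRow x w as bs h', h', cv_cadd]; ring

theorem hev_mapR_cdbl (x w : ℝ) (j : ℕ) :
    ∀ a, hev x w (mapR (cdbl j) a) = 2 ^ j * hev x w a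
  | [] => by simp [mapR, hev]
  | a :: as => by
    have h := hev_mapR_cdbl x w j as
    rw [mapR_eq] at h ⊢
    simp [hev, h, cv_cdbl]; ring

/-- One Horner step of the substitution in the first pair. -/
def lin2 (p : List Coef) (q : List (List Coef)) : List (List Coef) :=
  List.rec (fun p => [p]) (fun x _ ih p => addRow p x :: ih x) q p

/-- The substitution in the first pair. -/
def shl2 (p : List (List Coef)) : List (List Coef) := List.rec [] (fun x _ ih => lin2 x ih) p

/-- The doubling in the first pair, times `2 ^ j`. -/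
def sc2 (j : ℕ) (p : List (List Coef)) : List (List Coef) :=
  List.rec (fun _ => []) (fun x _ ih j => mapR (cdbl j) x :: ih (Nat.succ j)) p j

theorem lin2_cons (p q : List Coef) (qs : List (List Coef)) :
    lin2 p (q :: qs) = addRow p q :: lin2 q qs := rfl

theorem shl2_cons (r : List Coef) (rs : List (List Coef)) :
    shl2 (r :: rs) = lin2 r (shl2 rs) := rfl

theorem sc2_cons (j : ℕ) (r : List Coef) (rs : List (List Coef)) :
    sc2 j (r :: rs) = mapR (cdbl j) r :: sc2 (j + 1) rs := rfl

theorem length_lin2 : ∀ p q, (lin2 p q).length = q.length + 1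
  | p, [] => rfl
  | p, q :: qs => by simp [lin2_cons, length_lin2 _ qs]

theorem length_shl2 : ∀ p, (shl2 p).length = p.length
  | [] => rfl
  | r :: rs => by simp [shl2_cons, length_lin2, length_shl2 rs]

theorem length_sc2 : ∀ j p, (sc2 j p).length = p.length
  | _, [] => rfl
  | j, r :: rs => by simp [sc2_cons, length_sc2 (j + 1) rs]

theorem rect_lin2 {m : ℕ} : ∀ p q, p.length = m → Rect m q → Rect m (lin2 p q)
  | p, [], hp, _ => by simpa [lin2, Rect] using hp
  | p, q :: qs, hp, hq => by
    have h1 : q.length = m := hq q (by simp)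
    have h2 := rect_lin2 q qs h1 fun r hr => hq r (by simp [hr])
    simp only [lin2_cons, Rect, List.forall_mem_cons]
    exact ⟨by rw [length_addRow _ _ (hp.trans h1.symm), hp], h2⟩

theorem rect_shl2 {m : ℕ} : ∀ p, Rect m p → Rect m (shl2 p)
  | [], h => h
  | r :: rs, h =>
    rect_lin2 r _ (h r (by simp)) (rect_shl2 rs fun t ht => h t (by simp [ht]))

theorem rect_sc2 {m : ℕ} : ∀ j p, Rect m p → Rect m (sc2 j p)
  | _, [], h => h
  | j, r :: rs, h => by
    have h2 := rect_sc2 (j + 1) rs fun t ht => h t (by simp [ht])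
    simp only [sc2_cons, Rect, List.forall_mem_cons]
    exact ⟨by rw [mapR_eq, List.length_map, h r (by simp)], h2⟩

theorem hev2_lin2 (x w a b : ℝ) {m : ℕ} : ∀ p q, p.length = m → Rect m q →
    hev2 x w a b (lin2 p q) = hev a b p * w ^ q.length + (x + w) * hev2 x w a b q
  | p, [], _, _ => by simp [lin2, hev2]
  | p, q :: qs, hp, hq => by
    have h1 : q.length = m := hq q (by simp)
    simp only [lin2_cons, hev2, length_lin2, List.length_cons, pow_succ,
      hev_addRow _ _ _ _ (hp.trans h1.symm),
      hev2_lin2 x w a b q qs h1 fun r hr => hq r (by simp [hr])]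
    ring

theorem hev2_shl2 (x w a b : ℝ) {m : ℕ} :
    ∀ p, Rect m p → hev2 x w a b (shl2 p) = hev2 (x + w) w a b p
  | [], _ => rfl
  | r :: rs, h => by
    have h' : Rect m rs := fun t ht => h t (by simp [ht])
    simp [shl2_cons, hev2, hev2_lin2 x w a b r _ (h r (by simp)) (rect_shl2 rs h'), length_shl2,
      hev2_shl2 x w a b rs h']

theorem hev2_sc2 (x w a b : ℝ) : ∀ j p, hev2 x w a b (sc2 j p) = 2 ^ j * hev2 (2 * x) w a b p
  | _, [] => by simp [sc2, hev2]
  | j, r :: rs => by
    simp only [sc2_cons, hev2, length_sc2, hev2_sc2 x w a b (j + 1) rs, hev_mapR_cdbl, pow_succ]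
    ring

theorem hev2_concat (x w a b : ℝ) (c : List Coef) :
    ∀ p, hev2 x w a b (p ++ [c]) = w * hev2 x w a b p + hev a b c * x ^ p.length
  | [] => by simp [hev2]
  | r :: rs => by simp [hev2, hev2_concat x w a b c rs, pow_succ]; ring

theorem hev2_reverse (x w a b : ℝ) : ∀ p, hev2 x w a b p.reverse = hev2 w x a b p
  | [] => rfl
  | r :: rs => by
    rw [List.reverse_cons, hev2_concat, hev2_reverse x w a b rs, List.length_reverse]
    simp [hev2]; ring

theorem hev2_map (x w a b a' b' : ℝ) (f : List Coef → List Coef)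
    (hf : ∀ r, hev a b (f r) = hev a' b' r) :
    ∀ p, hev2 x w a b (p.map f) = hev2 x w a' b' p
  | [] => rfl
  | r :: rs => by simp [hev2, hf, hev2_map x w a b a' b' f hf rs]

theorem rect_map {m : ℕ} {f : List Coef → List Coef} (hf : ∀ r, (f r).length = r.length)
    {p : List (List Coef)} (h : Rect m p) : Rect m (p.map f) := fun r hr => by
  obtain ⟨q, hq, rfl⟩ := List.mem_map.1 hr
  rw [hf, h q hq]

/-- The substitution `x ↦ 2 x + w` on a row. -/
def up (r : List Coef) : List Coef := sc 0 (shl r)

/-- The substitution `w ↦ 2 w + x` on a row. -/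
def down (r : List Coef) : List Coef := rev (up (rev r))

/-- The half of larger `x` in a pair (`second` says which pair). -/
def high (second : Bool) (p : List (List Coef)) : List (List Coef) :=
  bif second then mapR up p else sc2 0 (shl2 p)

/-- The half of larger `w` in a pair. -/
def less (second : Bool) (p : List (List Coef)) : List (List Coef) :=
  bif second then mapR down p else rev (sc2 0 (shl2 (rev p)))

theorem hev_up (x w : ℝ) (r : List Coef) : hev x w (up r) = hev (2 * x + w) w r := by
  rw [up, hev_sc, hev_shl]; simp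

theorem hev_down (x w : ℝ) (r : List Coef) : hev x w (down r) = hev x (2 * w + x) r := by
  rw [down, rev_eq, rev_eq, hev_reverse, hev_up, hev_reverse]

theorem rect_reverse {m : ℕ} {p : List (List Coef)} (h : Rect m p) : Rect m p.reverse :=
  fun r hr => h r (List.mem_reverse.1 hr)

theorem rect_high {m : ℕ} (second : Bool) {p : List (List Coef)} (h : Rect m p) :
    Rect m (high second p) := by
  cases second
  · exact rect_sc2 0 _ (rect_shl2 p h)
  · simp only [high, cond_true, mapR_eq]
    exact rect_map (fun r => by simp [up, length_sc, length_shl]) h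

theorem rect_less {m : ℕ} (second : Bool) {p : List (List Coef)} (h : Rect m p) :
    Rect m (less second p) := by
  cases second
  · simp only [less, cond_false, rev_eq]
    exact rect_reverse (rect_sc2 0 _ (rect_shl2 _ (rect_reverse h)))
  · simp only [less, cond_true, mapR_eq]
    exact rect_map (fun r => by simp [down, rev_eq, up, length_sc, length_shl]) h

/-- A subdivision tree: at a leaf either a target has nonnegative coefficients or a gate has
negative ones. -/
inductive Tree : Type
  | target (i : ℕ)
  | gate (i : ℕ)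
  | node (second : Bool) (lower upper : Tree)

/-- The test along a tree. -/
def Tree.ok : Tree → List (List (List Coef)) → List (List (List Coef)) → Bool
  | .target i, Ps, _ =>
    match Ps[i]? with
    | some p => allR (allR fun c => Nat.ble c.2 c.1) p
    | none => false
  | .gate i, _, gs =>
    match gs[i]? with
    | some (r :: rs) => !r.isEmpty && allR (allR fun c => Nat.ble (Nat.succ c.1) c.2) (r :: rs)
    | _ => false
  | .node b l h, Ps, gs =>
    l.ok (Ps.map (less b)) (gs.map (less b)) &&
      h.ok (Ps.map (high b)) (gs.map (high b))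

theorem hev_nonneg {x w : ℝ} (hx : 0 ≤ x) (hw : 0 ≤ w) :
    ∀ r : List Coef, (∀ c ∈ r, 0 ≤ cv c) → 0 ≤ hev x w r
  | [], _ => le_rfl
  | b :: bs, h => add_nonneg (mul_nonneg (h b (by simp)) (pow_nonneg hw _))
      (mul_nonneg hx (hev_nonneg hx hw bs fun c hc => h c (by simp [hc])))

theorem hev2_nonneg {x w a b : ℝ} (hx : 0 ≤ x) (hw : 0 ≤ w) (ha : 0 ≤ a) (hb : 0 ≤ b) :
    ∀ p : List (List Coef), (∀ r ∈ p, ∀ c ∈ r, 0 ≤ cv c) → 0 ≤ hev2 x w a b p
  | [], _ => le_rfl
  | r :: rs, h => add_nonneg (mul_nonneg (hev_nonneg ha hb r (h r (by simp))) (pow_nonneg hw _))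
      (mul_nonneg hx (hev2_nonneg hx hw ha hb rs fun c hc => h c (by simp [hc])))

theorem hev_neg {x w : ℝ} (hx : 0 ≤ x) (hw : 0 ≤ w) (hxw : 0 < x + w) :
    ∀ r : List Coef, r ≠ [] → (∀ c ∈ r, cv c < 0) → hev x w r < 0
  | [b], _, h => by simpa [hev] using h b (by simp)
  | b :: c :: bs, _, h => by
    have h1 : cv b < 0 := h b (by simp)
    have h2 := hev_neg hx hw hxw (c :: bs) (by simp) fun t ht => h t (List.mem_cons_of_mem _ ht)
    simp only [hev] at h2 ⊢
    rcases hw.lt_or_eq with hw | rfl
    · nlinarith [pow_pos hw (c :: bs).length]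
    · have : 0 < x := by linarith
      simp only [List.length_cons, zero_pow (Nat.succ_ne_zero _), mul_zero, zero_add] at h2 ⊢
      nlinarith

theorem hev2_neg {x w a b : ℝ} (hx : 0 ≤ x) (hw : 0 ≤ w) (hxw : 0 < x + w) (ha : 0 ≤ a)
    (hb : 0 ≤ b) (hab : 0 < a + b) {m : ℕ} (hm : 0 < m) :
    ∀ p : List (List Coef), p ≠ [] → Rect m p → (∀ r ∈ p, ∀ c ∈ r, cv c < 0) →
      hev2 x w a b p < 0
  | [r], _, hr, h => by
    have := hev_neg ha hb hab r
      (List.ne_nil_of_length_pos (by rw [hr r (by simp)]; exact hm)) (h r (by simp))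
    simpa [hev2] using this
  | r :: t :: rs, _, hr, h => by
    have h1 := hev_neg ha hb hab r
      (List.ne_nil_of_length_pos (by rw [hr r (by simp)]; exact hm)) (h r (by simp))
    have h2 := hev2_neg hx hw hxw ha hb hab hm (t :: rs) (by simp)
      (fun q hq => hr q (List.mem_cons_of_mem _ hq)) fun q hq => h q (List.mem_cons_of_mem _ hq)
    simp only [hev2] at h2 ⊢
    rcases hw.lt_or_eq with hw | rfl
    · nlinarith [pow_pos hw (t :: rs).length]
    · have : 0 < x := by linarith
      simp only [List.length_cons, zero_pow (Nat.succ_ne_zero _), mul_zero, zero_add] at h2 ⊢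
      nlinarith

theorem of_ok {m : ℕ} : ∀ (T : Tree) {Ps gs : List (List (List Coef))}, T.ok Ps gs = true →
    (∀ p ∈ Ps ++ gs, Rect m p) → ∀ {x w a b : ℝ}, 0 ≤ x → 0 ≤ w → 0 < x + w → 0 ≤ a → 0 ≤ b →
    0 < a + b → (∀ g ∈ gs, 0 ≤ hev2 x w a b g) → ∃ p ∈ Ps, 0 ≤ hev2 x w a b p
  | .target i, Ps, gs, h, _, x, w, a, b, hx, hw, _, ha, hb, _, _ => by
    simp only [Tree.ok] at h
    split at h
    · next p hp =>
      simp only [allR_iff, Nat.ble_eq] at h
      exact ⟨p, List.mem_of_getElem? hp, hev2_nonneg hx hw ha hb p fun r hr c hc =>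
        sub_nonneg.2 (Nat.cast_le.2 (h r hr c hc))⟩
    · simp at h
  | .gate i, Ps, gs, h, hr, x, w, a, b, hx, hw, hxw, ha, hb, hab, hg => by
    simp only [Tree.ok] at h
    split at h
    · next r rs hp =>
      simp only [Bool.and_eq_true, allR_iff, Nat.ble_eq] at h
      have hmem := List.mem_of_getElem? hp
      have hR := hr _ (List.mem_append_right _ hmem)
      have hm : 0 < m := by
        rw [← hR r (by simp)]
        cases r <;> simp_all
      have := hev2_neg hx hw hxw ha hb hab hm (r :: rs) (by simp) hR fun q hq c hc =>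
        sub_neg.2 (Nat.cast_lt.2 (Nat.lt_of_succ_le (h.2 q hq c hc)))
      exact absurd (hg _ hmem) (not_le.2 this)
    · simp at h
  | .node sec l u, Ps, gs, h, hr, x, w, a, b, hx, hw, hxw, ha, hb, hab, hg => by
    simp only [Tree.ok, Bool.and_eq_true] at h
    have key : ∀ (T' : Tree) (f : List (List Coef) → List (List Coef)),
        T'.ok (Ps.map f) (gs.map f) = true → (∀ p, Rect m p → Rect m (f p)) →
        ∀ x' w' a' b' : ℝ, 0 ≤ x' → 0 ≤ w' → 0 < x' + w' → 0 ≤ a' → 0 ≤ b' → 0 < a' + b' →
        (∀ (Qs : List (List (List Coef))), T'.ok Qs (gs.map f) = true →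
          (∀ p ∈ Qs ++ gs.map f, Rect m p) → (∀ g ∈ gs.map f, 0 ≤ hev2 x' w' a' b' g) →
          ∃ p ∈ Qs, 0 ≤ hev2 x' w' a' b' p) →
        (∀ p, Rect m p → hev2 x' w' a' b' (f p) = hev2 x w a b p) →
        ∃ p ∈ Ps, 0 ≤ hev2 x w a b p := by
      intro T' f hok hrf x' w' a' b' _ _ _ _ _ _ rec he
      obtain ⟨p, hp, hp0⟩ := rec _ hok (by
          rw [← List.map_append]
          intro p hp
          obtain ⟨q, hq, rfl⟩ := List.mem_map.1 hp
          exact hrf q (hr q hq))
        (by
          intro g hg'
          obtain ⟨q, hq, rfl⟩ := List.mem_map.1 hg'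
          rw [he q (hr q (List.mem_append_right _ hq))]
          exact hg q hq)
      obtain ⟨q, hq, rfl⟩ := List.mem_map.1 hp
      rw [he q (hr q (List.mem_append_left _ hq))] at hp0
      exact ⟨q, hq, hp0⟩
    cases sec
    · rcases le_total w x with hwx | hwx
      · refine key u _ h.2 (fun _ => rect_high false) ((x - w) / 2) w a b (by linarith) hw
          (by linarith) ha hb hab (fun Qs h1 h2 h3 => of_ok u h1 h2 (by linarith) hw
            (by linarith) ha hb hab h3) fun p hp => ?_
        rw [high, cond_false, hev2_sc2, hev2_shl2 _ _ a b p hp]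
        rw [show 2 * ((x - w) / 2) + w = x by ring, pow_zero, one_mul]
      · refine key l _ h.1 (fun _ => rect_less false) x ((w - x) / 2) a b hx (by linarith)
          (by linarith) ha hb hab (fun Qs h1 h2 h3 => of_ok l h1 h2 hx (by linarith)
            (by linarith) ha hb hab h3) fun p hp => ?_
        rw [less, cond_false, rev_eq, rev_eq, hev2_reverse, hev2_sc2,
          hev2_shl2 _ _ a b p.reverse (rect_reverse hp), hev2_reverse]
        rw [show 2 * ((w - x) / 2) + x = w by ring, pow_zero, one_mul]
    · rcases le_total b a with hba | hba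
      · refine key u _ h.2 (fun _ => rect_high true) x w ((a - b) / 2) b hx hw hxw (by linarith)
          hb (by linarith) (fun Qs h1 h2 h3 => of_ok u h1 h2 hx hw hxw (by linarith) hb
            (by linarith) h3) fun p _ => ?_
        rw [high, cond_true, mapR_eq, hev2_map x w _ _ a b up fun r => ?_]
        rw [hev_up, show 2 * ((a - b) / 2) + b = a by ring]
      · refine key l _ h.1 (fun _ => rect_less true) x w a ((b - a) / 2) hx hw hxw ha
          (by linarith) (by linarith) (fun Qs h1 h2 h3 => of_ok l h1 h2 hx hw hxw ha (by linarith)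
            (by linarith) h3) fun p _ => ?_
        rw [less, cond_true, mapR_eq, hev2_map x w _ _ a b down fun r => ?_]
        rw [hev_down, show 2 * ((b - a) / 2) + a = b by ring]

/-- A coefficient as a pair. -/
def toCoef (c : ℤ) : Coef := (c.toNat, (-c).toNat)

theorem cv_toCoef (c : ℤ) : cv (toCoef c) = c := by
  show (c.toNat : ℝ) - ((-c).toNat : ℕ) = c
  rw [← Int.cast_natCast, ← Int.cast_natCast (-c).toNat, ← Int.cast_sub, Int.toNat_sub_toNat_neg]

/-- Pad a row with zeros up to a length. -/
def padTo (m : ℕ) (r : List ℤ) : List ℤ := r ++ List.replicate (m - r.length) 0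

theorem ev_padTo (v : ℝ) (m : ℕ) : ∀ r, ev v (padTo m r) = ev v r := by
  have h0 : ∀ k, ev v (List.replicate k (0 : ℤ)) = 0 := fun k => by
    induction k with
    | zero => simp [ev]
    | succ k ih => simp [List.replicate_succ, ev, ih]
  have h1 : ∀ r k, ev v (r ++ List.replicate k (0 : ℤ)) = ev v r := fun r k => by
    induction r with
    | nil => simp [ev, h0]
    | cons c cs ih => simp [ev, ih]
  exact fun r => h1 r _

theorem hev_one (v : ℝ) : ∀ r, hev v 1 (r.map toCoef) = ev v r
  | [] => rfl
  | c :: cs => by simp [hev, ev, cv_toCoef, hev_one v cs]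

theorem hev2_one (u a b v : ℝ) (f : List ℤ → List Coef) : ∀ p, (∀ r ∈ p, hev a b (f r) = ev v r) →
    hev2 u 1 a b (p.map f) = ev2 u v p
  | [], _ => rfl
  | r :: rs, h => by
    simp [hev2, ev2, h r (by simp), hev2_one u a b v f rs fun t ht => h t (by simp [ht])]

/-- A row of the polynomial in homogeneous form. -/
def squareRow (m : ℕ) (r : List ℤ) : List Coef := rev (shl (rev (mapR toCoef (padTo m r))))

/-- Passage from coefficients to homogeneous ones on the unit square. -/
def toSquare (m : ℕ) (p : Poly) : List (List Coef) := rev (shl2 (rev (mapR (squareRow m) p.rows)))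

/-- The test on polynomials. -/
def checkPoly (m : ℕ) (T : Tree) (Ps gs : List Poly) : Bool :=
  (Ps ++ gs).all (fun p => p.rows.all fun r => decide (r.length ≤ m)) &&
    T.ok (Ps.map (toSquare m)) (gs.map (toSquare m))

theorem of_checkPoly {m : ℕ} {T : Tree} {Ps gs : List Poly} (h : checkPoly m T Ps gs = true)
    {u v : ℝ} (u0 : 0 ≤ u) (u1 : u ≤ 1) (v0 : 0 ≤ v) (v1 : v ≤ 1)
    (hg : ∀ g ∈ gs, 0 ≤ g.eval u v) : ∃ p ∈ Ps, 0 ≤ p.eval u v := by
  simp only [checkPoly, Bool.and_eq_true, List.all_eq_true, decide_eq_true_eq] at h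
  have hrect : ∀ p ∈ Ps ++ gs, Rect m (p.rows.map (squareRow m)) :=
    fun p hp r hr => by
      obtain ⟨q, hq, rfl⟩ := List.mem_map.1 hr
      have := h.1 p hp q hq
      simp [squareRow, rev_eq, mapR_eq, length_shl, padTo]
      omega
  have he : ∀ p ∈ Ps ++ gs, hev2 u (1 - u) v (1 - v) (toSquare m p) = p.eval u v := fun p hp => by
    rw [toSquare, rev_eq, rev_eq, mapR_eq, hev2_reverse,
      hev2_shl2 _ _ _ _ _ (rect_reverse (hrect p hp)), hev2_reverse, sub_add_cancel,
      hev2_one u v (1 - v) v _ _ fun r _ => by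
        rw [squareRow, rev_eq, rev_eq, hev_reverse, hev_shl, hev_reverse, sub_add_cancel, mapR_eq,
          hev_one, ev_padTo]]
    rfl
  obtain ⟨p, hp, hp0⟩ := of_ok T h.2 (m := m) (by
      rw [← List.map_append]
      intro p hp
      obtain ⟨q, hq, rfl⟩ := List.mem_map.1 hp
      rw [toSquare, rev_eq, rev_eq, mapR_eq]
      exact rect_reverse (rect_shl2 _ (rect_reverse (hrect q hq))))
    u0 (by linarith) (by linarith : 0 < u + (1 - u)) v0 (by linarith)
    (by linarith : 0 < v + (1 - v)) (by
      intro g hg'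
      obtain ⟨q, hq, rfl⟩ := List.mem_map.1 hg'
      rw [he q (List.mem_append_right _ hq)]
      exact hg q hq)
  obtain ⟨q, hq, rfl⟩ := List.mem_map.1 hp
  rw [he q (List.mem_append_left _ hq)] at hp0
  exact ⟨q, hq, hp0⟩

end Vale.Agent.P237.Four
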