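import Vale.Agent.P237.Four.Lines
import Mathlib

/-!
P237, dimension four: the excess of the squared profile on the two sides of a height, bounded
below by the tangent hull of the ball.
-/

noncomputable section

open MeasureTheory Set Real intervalIntegral

namespace Vale.Agent.P237.Four

/-- The excess of a squared profile over the squared semicircle. -/
def excess (F : ℝ → ℝ) (t : ℝ) : ℝ := F t ^ 2 - (1 - t ^ 2)

/-- A concave antitone profile above the semicircle, on the half axis. -/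
structure Half (F : ℝ → ℝ) : Prop where
  concave : ConcaveOn ℝ (Ico 0 1) F
  antitone : AntitoneOn F (Icc 0 1)
  above : ∀ t ∈ Ico (0 : ℝ) 1, √(1 - t ^ 2) ≤ F t
  top : 0 ≤ F 1

variable {F : ℝ → ℝ}

theorem Half.nonneg (hF : Half F) {t : ℝ} (ht : t ∈ Icc (0 : ℝ) 1) : 0 ≤ F t := by
  rcases eq_or_lt_of_le ht.2 with rfl | h
  · exact hF.top
  · exact (sqrt_nonneg _).trans (hF.above t ⟨ht.1, h⟩)

theorem Half.excess_nonneg (hF : Half F) {t : ℝ} (ht : t ∈ Icc (0 : ℝ) 1) :
    0 ≤ excess F t := by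
  rcases eq_or_lt_of_le ht.2 with rfl | h
  · simp [excess, sq_nonneg]
  · have h1 := pow_le_pow_left₀ (sqrt_nonneg _) (hF.above t ⟨ht.1, h⟩) 2
    rw [sq_sqrt (sub_nonneg.2 (pow_le_one₀ ht.1 ht.2))] at h1
    simp only [excess]; linarith

theorem Half.intervalIntegrable_pow (hF : Half F) (n : ℕ) {a b : ℝ} (ha : 0 ≤ a) (hab : a ≤ b)
    (hb : b ≤ 1) : IntervalIntegrable (fun t => F t ^ n) volume a b := by
  refine AntitoneOn.intervalIntegrable ?_
  rw [uIcc_of_le hab]
  intro x hx y hy hxy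
  have hx' : x ∈ Icc (0 : ℝ) 1 := ⟨ha.trans hx.1, hx.2.trans hb⟩
  have hy' : y ∈ Icc (0 : ℝ) 1 := ⟨ha.trans hy.1, hy.2.trans hb⟩
  exact pow_le_pow_left₀ (hF.nonneg hy') (hF.antitone hx' hy' hxy) n

theorem Half.intervalIntegrable_excess (hF : Half F) {a b : ℝ} (ha : 0 ≤ a) (hab : a ≤ b)
    (hb : b ≤ 1) : IntervalIntegrable (excess F) volume a b :=
  (hF.intervalIntegrable_pow 2 ha hab hb).sub (Continuous.intervalIntegrable (by fun_prop) _ _)

/-- The excess between `a` and `b` is at least the gap between a chord of the tangent line and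
the semicircle. -/
theorem Half.tangent_le (hF : Half F) {a b t₀ s₀ : ℝ} (ha : 0 ≤ a) (hab : a ≤ b) (hb : b < 1)
    (hs : 0 < s₀) (hunit : t₀ ^ 2 + s₀ ^ 2 = 1) (ht : t₀ ∈ Icc (0 : ℝ) 1)
    (hA : (1 - t₀ * a) / s₀ ≤ F a) (hB : (1 - t₀ * b) / s₀ ≤ F b) :
    ((b - t₀) ^ 3 - (a - t₀) ^ 3) / (3 * s₀ ^ 2) ≤ ∫ t in a..b, excess F t := by
  have key : ∀ t ∈ Icc a b, (t - t₀) ^ 2 / s₀ ^ 2 ≤ excess F t := by
    intro t ⟨h1, h2⟩
    have ht1 : t < 1 := h2.trans_lt hb
    have hL0 : 0 ≤ (1 - t₀ * t) / s₀ :=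
      div_nonneg (sub_nonneg.2 (mul_le_one₀ ht.2 (ha.trans h1) ht1.le)) hs.le
    have hL : (1 - t₀ * t) / s₀ ≤ F t := by
      rcases eq_or_lt_of_le hab with rfl | e
      · rwa [le_antisymm h2 h1]
      · set lam := (b - t) / (b - a) with hlam
        have hba : 0 < b - a := sub_pos.2 e
        have hl0 : 0 ≤ lam := div_nonneg (sub_nonneg.2 h2) hba.le
        have hl1 : 0 ≤ 1 - lam := by rw [sub_nonneg, hlam, div_le_one hba]; linarith
        have hc := hF.concave.2 ⟨ha, hab.trans_lt hb⟩ ⟨ha.trans hab, hb⟩ hl0 hl1 (by ring)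
        have he : lam * a + (1 - lam) * b = t := by
          rw [hlam]; field_simp [hba.ne']; ring
        simp only [smul_eq_mul, he] at hc
        have h3 : (1 - t₀ * t) / s₀ =
            lam * ((1 - t₀ * a) / s₀) + (1 - lam) * ((1 - t₀ * b) / s₀) := by
          rw [← he]; field_simp; ring
        rw [h3]
        exact (add_le_add (mul_le_mul_of_nonneg_left hA hl0)
          (mul_le_mul_of_nonneg_left hB hl1)).trans hc
    have h4 : ((1 - t₀ * t) / s₀) ^ 2 - (1 - t ^ 2) = (t - t₀) ^ 2 / s₀ ^ 2 := by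
      field_simp
      linear_combination (t ^ 2 - 1) * hunit
    have h5 := pow_le_pow_left₀ hL0 hL 2
    simp only [excess]
    linarith
  refine le_trans (le_of_eq ?_) (integral_mono_on hab
    (Continuous.intervalIntegrable (by fun_prop) _ _)
    (hF.intervalIntegrable_excess ha hab hb.le) key)
  rw [intervalIntegral.integral_div, intervalIntegral.integral_comp_sub_right (fun x => x ^ 2),
    integral_pow]
  field_simp
  push_cast
  ring

theorem Half.integral_nonneg (hF : Half F) {a b : ℝ} (ha : 0 ≤ a) (hab : a ≤ b) (hb : b ≤ 1) :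
    0 ≤ ∫ t in a..b, excess F t :=
  intervalIntegral.integral_nonneg hab fun _ ht =>
    hF.excess_nonneg ⟨ha.trans ht.1, ht.2.trans hb⟩

/-- The tangent data of a height. -/
theorem Half.point (hF : Half F) {z : ℝ} (hz : z ∈ Ioo (0 : ℝ) 1) :
    Point (decide (1 < F z)) z (√(1 - z ^ 2)) (F z) (√(F z ^ 2 - (1 - z ^ 2)))
      (∫ t in (0 : ℝ)..z, excess F t) (∫ t in z..1, excess F t) := by
  obtain ⟨z0, z1⟩ := hz
  have hw : 0 < 1 - z ^ 2 := sub_pos.2 (pow_lt_one₀ z0.le z1 two_ne_zero)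
  have hsy := hF.above z ⟨z0.le, z1⟩
  set s := √(1 - z ^ 2) with hsdef
  set y := F z with hydef
  set d := √(y ^ 2 - (1 - z ^ 2)) with hddef
  have hs0 : 0 < s := sqrt_pos.2 hw
  have hs2 : s ^ 2 = 1 - z ^ 2 := sq_sqrt hw.le
  have hy0 : 0 < y := hs0.trans_le hsy
  have hd0 : 0 ≤ d := sqrt_nonneg _
  have hd2 : d ^ 2 = y ^ 2 - (1 - z ^ 2) := sq_sqrt (sub_nonneg.2 (hs2 ▸ pow_le_pow_left₀ hs0.le hsy 2))
  have hD : (0 : ℝ) < 1 + d ^ 2 := by positivity
  set tr := (z + y * d) / (1 + d ^ 2) with htr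
  set sr := (y - z * d) / (1 + d ^ 2) with hsr
  have hnum : 0 < y - z * d := sub_pos.2 ((sq_lt_sq₀ (by positivity) hy0.le).1 (by
    rw [mul_pow]
    rw [hd2]
    linarith [mul_pos hw (show (0 : ℝ) < y ^ 2 by positivity), mul_nonneg hw.le (sq_nonneg z)]))
  have hsr0 : 0 < sr := div_pos hnum hD
  have hur : tr ^ 2 + sr ^ 2 = 1 := by
    rw [htr, hsr]; field_simp; linear_combination (-(1 + d ^ 2)) * hd2
  have htr0 : 0 ≤ tr := div_nonneg (by positivity) hD.le
  have htr1 : tr < 1 := by nlinarith only [hur, hsr0]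
  have hgapr : tr - z = d * sr := by rw [htr, hsr]; field_simp; ring
  have hzr : z ≤ tr := by linarith [mul_nonneg hd0 hsr0.le]
  have hright : d ^ 3 * (y - z * d) ≤ (∫ t in z..1, excess F t) * (3 * (1 + d ^ 2)) := by
    have h1 := hF.tangent_le z0.le hzr htr1 hsr0 hur ⟨htr0, htr1.le⟩
      (by rw [div_le_iff₀ hsr0, ← hydef]
          exact le_of_eq (by rw [htr, hsr]; field_simp; linear_combination hd2))
      (by rw [div_le_iff₀ hsr0]
          have := hF.above tr ⟨htr0, htr1⟩
          rw [show 1 - tr ^ 2 = sr ^ 2 by linarith, sqrt_sq hsr0.le] at this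
          linarith [mul_le_mul_of_nonneg_right this hsr0.le])
    rw [sub_self, zero_pow (by norm_num : (3 : ℕ) ≠ 0),
      show z - tr = -(d * sr) by linarith] at h1
    have h2 : (0 - (-(d * sr)) ^ 3) / (3 * sr ^ 2) * (3 * (1 + d ^ 2)) = d ^ 3 * (y - z * d) := by
      rw [show y - z * d = sr * (1 + d ^ 2) by rw [hsr]; field_simp]
      field_simp
      ring
    rw [← h2]
    refine mul_le_mul_of_nonneg_right (h1.trans ?_) (by positivity)
    rw [← integral_add_adjacent_intervals (hF.intervalIntegrable_excess z0.le hzr htr1.le)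
      (hF.intervalIntegrable_excess htr0 htr1.le le_rfl)]
    exact le_add_of_nonneg_right (hF.integral_nonneg htr0 htr1.le le_rfl)
  refine ⟨z0.le, hs0.le, by linarith, hsy, hd0, by rw [hd2, hs2],
    fun h => (of_decide_eq_true h).le, ?_, hright⟩
  by_cases hy1 : 1 < y
  · simp only [hy1, decide_true, if_true]
    have h1 : (y ^ 2 - 1) * z + z ^ 3 / 3 ≤ ∫ t in (0 : ℝ)..z, excess F t := by
      refine le_trans (le_of_eq ?_) (integral_mono_on z0.le
        ((show Continuous fun t : ℝ => (y ^ 2 - 1) + t ^ 2 by fun_prop).intervalIntegrable _ _)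
        (hF.intervalIntegrable_excess le_rfl z0.le z1.le) fun t ⟨a, b⟩ => ?_)
      · rw [intervalIntegral.integral_add intervalIntegrable_const
          ((by fun_prop : Continuous fun t : ℝ => t ^ 2).intervalIntegrable _ _),
          intervalIntegral.integral_const, integral_pow]
        simp; ring
      · have := pow_le_pow_left₀ hy0.le
          (hF.antitone ⟨a, b.trans z1.le⟩ ⟨z0.le, z1.le⟩ b) 2
        simp only [excess]; linarith
    have h2 := mul_le_mul_of_nonneg_right h1 (show (0 : ℝ) ≤ 3 * (1 + d ^ 2) by positivity)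
    linarith [h2]
  · simp only [hy1, decide_false, Bool.false_eq_true, if_false]
    have hy1' : y ≤ 1 := le_of_not_gt hy1
    set tl := (z - y * d) / (1 + d ^ 2) with htl
    set sl := (y + z * d) / (1 + d ^ 2) with hsl
    have hsl0 : 0 < sl := div_pos (by positivity) hD
    have hul : tl ^ 2 + sl ^ 2 = 1 := by
      rw [htl, hsl]; field_simp; linear_combination (-(1 + d ^ 2)) * hd2
    have htl0 : 0 ≤ tl := by
      refine div_nonneg (sub_nonneg.2 ((sq_le_sq₀ (by positivity) z0.le).1 ?_)) hD.le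
      have := mul_nonneg (sub_nonneg.2 (pow_le_one₀ hy0.le hy1' (n := 2)))
        (add_nonneg (sq_nonneg y) (sq_nonneg z))
      rw [mul_pow, hd2]
      linarith
    have hgapl : z - tl = d * sl := by rw [htl, hsl]; field_simp; ring
    have hlz : tl ≤ z := by linarith [mul_nonneg hd0 hsl0.le]
    have h1 := hF.tangent_le htl0 hlz z1 hsl0 hul ⟨htl0, hlz.trans z1.le⟩
      (by rw [div_le_iff₀ hsl0]
          have := hF.above tl ⟨htl0, hlz.trans_lt z1⟩
          rw [show 1 - tl ^ 2 = sl ^ 2 by linarith, sqrt_sq hsl0.le] at this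
          linarith [mul_le_mul_of_nonneg_right this hsl0.le])
      (by rw [div_le_iff₀ hsl0, ← hydef]
          exact le_of_eq (by rw [htl, hsl]; field_simp; linear_combination hd2))
    rw [sub_self, zero_pow (by norm_num : (3 : ℕ) ≠ 0), hgapl] at h1
    have h2 : ((d * sl) ^ 3 - 0) / (3 * sl ^ 2) * (3 * (1 + d ^ 2)) = d ^ 3 * (y + z * d) := by
      rw [show y + z * d = sl * (1 + d ^ 2) by rw [hsl]; field_simp]
      field_simp
      ring
    rw [← h2]
    refine mul_le_mul_of_nonneg_right (h1.trans ?_) (by positivity)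
    rw [← integral_add_adjacent_intervals (hF.intervalIntegrable_excess le_rfl htl0
        (hlz.trans z1.le)) (hF.intervalIntegrable_excess htl0 hlz z1.le)]
    exact le_add_of_nonneg_left (hF.integral_nonneg le_rfl htl0 (hlz.trans z1.le))

end Vale.Agent.P237.Four
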