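import Vale.Agent.P237.Four.Checker

/-!
P237, dimension four: the polynomials whose nonnegativity bounds the calibrated integrand by a
linear function of the two parts of the excess, and what their nonnegativity gives.
-/

namespace Vale.Agent.P237.Four

/-- A linear bound `(al + p G + q H) / 10000` with multiplier `A / 400`, for totals `300 (G + H)`
from `n1` to `n2` (no upper end when `n2 = 0`). -/
structure Line where
  A : ℤ
  al : ℤ
  p : ℤ
  q : ℤ
  n1 : ℤ
  n2 : ℤ

section

variable {R : Type} [Add R] [Sub R] [Mul R] [IntCast R]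

/-- Numerator of the lower Taylor bound of the cube of a root at `C / 100`. -/
def tD (C : ℕ) (w : R) : R :=
  let W := ((10000 : ℤ) : R) * w - (((C : ℤ) ^ 2 : ℤ) : R)
  ((16 * (C : ℤ) ^ 6 : ℤ) : R) + ((24 * (C : ℤ) ^ 4 : ℤ) : R) * W +
    ((6 * (C : ℤ) ^ 2 : ℤ) : R) * W * W - W * W * W

/-- Its denominator. -/
def cD (C : ℕ) : ℤ := 16000000 * (C : ℤ) ^ 3

/-- Numerator of the lower bound of a root, tangent at `K / 1000`; zero when `K = 0`. -/
def zL (K : ℕ) (z2 : R) : R :=
  if K = 0 then ((0 : ℤ) : R)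
  else ((3000 * (K : ℤ) ^ 2 : ℤ) : R) * z2 - ((1000000000 : ℤ) : R) * z2 * z2

/-- Its denominator. -/
def zLd (K : ℕ) : ℤ := if K = 0 then 1 else 2 * (K : ℤ) ^ 3

/-- Numerator of the upper bound of a root, tangent at `K / 1000`; one when `K = 0`. -/
def zU (K : ℕ) (z2 : R) : R :=
  if K = 0 then ((1 : ℤ) : R) else ((1000000 : ℤ) : R) * z2 + (((K : ℤ) ^ 2 : ℤ) : R)

/-- Its denominator. -/
def zUd (K : ℕ) : ℤ := if K = 0 then 1 else 2000 * (K : ℤ)

/-- Four hundred times the calibrated numerator. -/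
def num (A : ℤ) (s y : R) : R :=
  let a := y * y + y * s + s * s
  let b := y * y * y * y + y * y * y * s + y * y * s * s + y * s * s * s + s * s * s * s
  ((400 : ℤ) : R) * a + (A : R) * (((5 : ℤ) : R) * (((1 : ℤ) : R) - s * s) * a - b)

/-- Three times one plus the squared tangent length. -/
def den (s y : R) : R := ((3 : ℤ) : R) * (((1 : ℤ) : R) + (y * y - s * s))

/-- The left integral without its root, times the denominator, above height one. -/
def left1 (s y : R) : R :=
  (((1 : ℤ) : R) + (y * y - s * s)) *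
    (((3 : ℤ) : R) * (y * y - ((1 : ℤ) : R)) + (((1 : ℤ) : R) - s * s))

/-- The coefficient of the root in the whole integral above height one. -/
def both1 (s y : R) : R :=
  let w := y * y - s * s
  (((1 : ℤ) : R) + w) *
    (((3 : ℤ) : R) * w - ((2 : ℤ) : R) * (((1 : ℤ) : R) - s * s)) - w * w

/-- A lower bound of the line: `(kind, C, K)` gives numerator and denominator. -/
def lineNum (hi : Bool) (L : Line) (o : ℕ × ℕ × ℕ) (s y : R) : R × ℤ :=
  let w := y * y - s * s
  let z2 := ((1 : ℤ) : R) - s * s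
  let T := tD o.2.1 w
  let c := cD o.2.1
  let l := zL o.2.2 z2
  let ld := zLd o.2.2
  let h := zU o.2.2 z2
  let hd := zUd o.2.2
  if o.1 = 2 then ((L.al : R) * den s y, 1)
  else if L.q ≤ L.p then
    if o.1 = 0 then
      (((L.al * c * ld : ℤ) : R) * den s y +
        (if hi then ((((L.p - L.q) * c : ℤ)) : R) * (l * left1 s y) +
            (L.q : R) * ((ld : R) * (y * T) + (c : R) * (l * both1 s y))
         else (((L.p + L.q) * ld : ℤ) : R) * (y * T) +
            (((L.p - L.q) * c : ℤ) : R) * (l * w * w)), c * ld)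
    else
      ((((300 * L.al + L.q * L.n1) * c * ld : ℤ) : R) * den s y +
        ((300 * (L.p - L.q) : ℤ) : R) *
          (if hi then (c : R) * (l * left1 s y)
           else (ld : R) * (y * T) + (c : R) * (l * w * w)), 300 * c * ld)
  else
    if o.1 = 0 then
      if hi then
        (((L.al * c * ld * hd : ℤ) : R) * den s y + ((L.p * c * hd : ℤ) : R) * (l * left1 s y) +
          ((L.q * ld : ℤ) : R) * ((hd : R) * (y * T) - (c : R) * (h * w * w)), c * ld * hd)
      else
        (((L.al * c * hd : ℤ) : R) * den s y + (((L.p + L.q) * hd : ℤ) : R) * (y * T) +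
          (((L.p - L.q) * c : ℤ) : R) * (h * w * w), c * hd)
    else
      ((((300 * L.al + L.p * L.n1) * c * hd : ℤ) : R) * den s y +
        ((300 * (L.q - L.p) : ℤ) : R) * ((hd : R) * (y * T) - (c : R) * (h * w * w)),
        300 * c * hd)

/-- The polynomial of an option. -/
def target (hi : Bool) (L : Line) (o : ℕ × ℕ × ℕ) (s y : R) : R :=
  let n := lineNum hi L o s y
  ((400 : ℤ) : R) * (y + s) * n.1 - ((10000 * n.2 : ℤ) : R) * den s y * num L.A s y

/-- A necessary condition on the total. -/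
def gate (hi : Bool) (L : Line) (o : ℕ × ℕ) (s y : R) : R :=
  let w := y * y - s * s
  let T := tD o.1 w
  let c := cD o.1
  if hi then
    ((L.n2 * c * zLd o.2 : ℤ) : R) * den s y -
      ((300 : ℤ) : R) *
        ((zLd o.2 : R) * (y * T) + (c : R) * (zL o.2 (((1 : ℤ) : R) - s * s) * both1 s y))
  else ((L.n2 * c : ℤ) : R) * den s y - ((600 : ℤ) : R) * (y * T)

end

/-- The certificate test for one line. -/
def lineCheck (hi : Bool) (L : Line) (os : List (ℕ × ℕ × ℕ)) (gs : List (ℕ × ℕ)) (T : Tree) : Bool :=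
  let y : Poly := if hi then ((1 : ℤ) : Poly) + ((3 : ℤ) : Poly) * Poly.Y else Poly.Y
  decide (0 ≤ L.p ∧ 0 ≤ L.q ∧ os.all (fun o => decide (0 < o.2.1)) ∧
    gs.all (fun o => decide (0 < o.1)) ∧ (L.n2 = 0 → gs = [])) &&
    checkPoly 9 T (os.map fun o => target hi L o Poly.X y)
      ((if hi then [] else [Poly.Y - Poly.X, ((4 : ℤ) : Poly) * Poly.Y - ((1 : ℤ) : Poly)]) ++
        gs.map fun o => gate hi L o Poly.X y)

variable {s y z d : ℝ}

theorem eval_target (hi : Bool) (L : Line) (o : ℕ × ℕ × ℕ) (u v : ℝ) (a b : Poly) :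
    (target hi L o a b).eval u v = target hi L o (a.eval u v) (b.eval u v) := by
  unfold target lineNum den num left1 both1 tD zL zU
  split_ifs <;> simp only [Poly.eval_add, Poly.eval_sub, Poly.eval_mul, Poly.eval_intCast]

theorem eval_gate (hi : Bool) (L : Line) (o : ℕ × ℕ) (u v : ℝ) (a b : Poly) :
    (gate hi L o a b).eval u v = gate hi L o (a.eval u v) (b.eval u v) := by
  unfold gate den both1 tD zL
  split_ifs <;> simp only [Poly.eval_add, Poly.eval_sub, Poly.eval_mul, Poly.eval_intCast]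

theorem tD_le (C : ℕ) {w : ℝ} (hd : 0 ≤ d) (hw : d ^ 2 = w) : tD C w ≤ (cD C : ℝ) * d ^ 3 := by
  subst hw
  have hC : (0 : ℝ) ≤ C := Nat.cast_nonneg C
  have h : 0 ≤ (100 * d - C) ^ 4 * ((100 * d) ^ 2 + 4 * C * (100 * d) + (C : ℝ) ^ 2) := by
    positivity
  simp only [tD, cD]
  push_cast
  linarith

theorem zL_le (K : ℕ) (hz : 0 ≤ z) : zL K (z ^ 2) ≤ (zLd K : ℝ) * z := by
  by_cases h : K = 0
  · simp [zL, zLd, h, hz]
  · have hK : (0 : ℝ) ≤ K := Nat.cast_nonneg K
    have : 0 ≤ (1000 * z - K) ^ 2 * (1000 * z + 2 * K) * z := by positivity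
    simp only [zL, zLd, if_neg h]
    push_cast
    linarith

theorem le_zU (K : ℕ) (hz1 : z ≤ 1) : (zUd K : ℝ) * z ≤ zU K (z ^ 2) := by
  by_cases h : K = 0
  · simp [zU, zUd, h, hz1]
  · simp only [zU, zUd, if_neg h]
    push_cast
    linarith [sq_nonneg (1000 * z - (K : ℝ))]

theorem cD_pos {C : ℕ} (h : 0 < C) : (0 : ℝ) < cD C := by
  simp only [cD]
  push_cast
  positivity

theorem zLd_pos (K : ℕ) : (0 : ℝ) < zLd K := by
  by_cases h : K = 0
  · simp [zLd, h]
  · simp only [zLd, if_neg h]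
    push_cast
    positivity

theorem zUd_pos (K : ℕ) : (0 : ℝ) < zUd K := by
  by_cases h : K = 0
  · simp [zUd, h]
  · simp only [zUd, if_neg h]
    push_cast
    positivity

/-- The tangent data at a point `(z, y)` outside the unit circle. -/
structure Point (hi : Bool) (z s y d G H : ℝ) : Prop where
  z0 : 0 ≤ z
  s0 : 0 ≤ s
  circle : z ^ 2 + s ^ 2 = 1
  le : s ≤ y
  d0 : 0 ≤ d
  dd : d ^ 2 = y ^ 2 - s ^ 2
  high : hi = true → 1 ≤ y
  left : (if hi then z * ((1 + d ^ 2) * (3 * (y ^ 2 - 1) + z ^ 2)) else d ^ 3 * (y + z * d)) ≤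
    G * (3 * (1 + d ^ 2))
  right : d ^ 3 * (y - z * d) ≤ H * (3 * (1 + d ^ 2))

section Bounds

variable {hi : Bool} {G H : ℝ}

theorem Point.sq_sub (P : Point hi z s y d G H) : y * y - s * s = d ^ 2 := by rw [P.dd]; ring

theorem Point.one_sub (P : Point hi z s y d G H) : 1 - s * s = z ^ 2 := by linarith [P.circle]

theorem Point.den_eq (P : Point hi z s y d G H) : den s y = 3 * (1 + d ^ 2) := by
  simp [den, P.sq_sub]

theorem Point.den_pos (P : Point hi z s y d G H) : 0 < den s y := by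
  rw [P.den_eq]; positivity

theorem Point.z1 (P : Point hi z s y d G H) : z ≤ 1 := by
  nlinarith [P.circle, P.z0, sq_nonneg s]

theorem Point.cube_le (P : Point hi z s y d G H) (C : ℕ) :
    y * tD C (d ^ 2) ≤ (cD C : ℝ) * (y * d ^ 3) :=
  (mul_le_mul_of_nonneg_left (tD_le C P.d0 rfl) (P.s0.trans P.le)).trans_eq (by ring)

theorem Point.low_sum (P : Point false z s y d G H) (C : ℕ) {k : ℝ} (hk : 0 ≤ k) (hC : 0 < C) :
    2 * (k * (y * tD C (d ^ 2))) ≤ (cD C : ℝ) * k * ((G + H) * den s y) := by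
  have h1 := mul_le_mul_of_nonneg_left (P.cube_le C) hk
  have hl : d ^ 3 * (y + z * d) ≤ G * (3 * (1 + d ^ 2)) := by simpa using P.left
  have h2 := mul_le_mul_of_nonneg_left (add_le_add hl P.right) (mul_nonneg (cD_pos hC).le hk)
  rw [P.den_eq]
  linear_combination 2 * h1 + h2

theorem Point.low_left (P : Point false z s y d G H) (C K : ℕ) (hC : 0 < C) :
    (zLd K : ℝ) * (y * tD C (d ^ 2)) + (cD C : ℝ) * (zL K (z ^ 2) * d ^ 2 * d ^ 2) ≤
      (cD C : ℝ) * zLd K * (G * den s y) := by
  have h1 := mul_le_mul_of_nonneg_left (P.cube_le C) (zLd_pos K).le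
  have h2 := mul_le_mul_of_nonneg_left
    (mul_le_mul_of_nonneg_right (zL_le K P.z0) (show 0 ≤ d ^ 4 by positivity)) (cD_pos hC).le
  have hl : d ^ 3 * (y + z * d) ≤ G * (3 * (1 + d ^ 2)) := by simpa using P.left
  have h3 := mul_le_mul_of_nonneg_left hl (mul_pos (cD_pos hC) (zLd_pos K)).le
  rw [P.den_eq]
  linear_combination h1 + h2 + h3

theorem Point.low_right (P : Point hi z s y d G H) (C K : ℕ) (hC : 0 < C) :
    (zUd K : ℝ) * (y * tD C (d ^ 2)) - (cD C : ℝ) * (zU K (z ^ 2) * d ^ 2 * d ^ 2) ≤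
      (cD C : ℝ) * zUd K * (H * den s y) := by
  have h1 := mul_le_mul_of_nonneg_left (P.cube_le C) (zUd_pos K).le
  have h2 := mul_le_mul_of_nonneg_left
    (mul_le_mul_of_nonneg_right (le_zU K P.z1) (show 0 ≤ d ^ 4 by positivity)) (cD_pos hC).le
  have h3 := mul_le_mul_of_nonneg_left P.right (mul_pos (cD_pos hC) (zUd_pos K)).le
  rw [P.den_eq]
  linear_combination h1 + h2 + h3

theorem Point.left1_eq (P : Point hi z s y d G H) :
    left1 s y = (1 + d ^ 2) * (3 * (y ^ 2 - 1) + z ^ 2) := by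
  simp only [left1, Int.cast_one, Int.cast_ofNat, P.sq_sub, P.one_sub]; ring

theorem Point.both1_eq (P : Point hi z s y d G H) :
    both1 s y = (1 + d ^ 2) * (3 * d ^ 2 - 2 * z ^ 2) - d ^ 2 * d ^ 2 := by
  simp only [both1, Int.cast_one, Int.cast_ofNat, P.sq_sub, P.one_sub]

theorem Point.left_hi (P : Point true z s y d G H) (C K : ℕ) (hC : 0 < C) :
    (cD C : ℝ) * (zL K (z ^ 2) * left1 s y) ≤ (cD C : ℝ) * zLd K * (G * den s y) := by
  have hY : 0 ≤ y ^ 2 - 1 := by nlinarith [P.high rfl]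
  have h4 : 0 ≤ left1 s y := by rw [P.left1_eq]; positivity
  have hl : z * left1 s y ≤ G * den s y := by
    rw [P.left1_eq, P.den_eq]; simpa using P.left
  have h1 := mul_le_mul_of_nonneg_left (mul_le_mul_of_nonneg_right (zL_le K P.z0) h4) (cD_pos hC).le
  have h2 := mul_le_mul_of_nonneg_left hl (mul_pos (cD_pos hC) (zLd_pos K)).le
  linear_combination h1 + h2

theorem Point.both_hi (P : Point true z s y d G H) (C K : ℕ) (hC : 0 < C) :
    (zLd K : ℝ) * (y * tD C (d ^ 2)) + (cD C : ℝ) * (zL K (z ^ 2) * both1 s y) ≤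
      (cD C : ℝ) * zLd K * ((G + H) * den s y) := by
  have hY : 0 ≤ y ^ 2 - 1 := by nlinarith [P.high rfl]
  have e3 : d ^ 2 = y ^ 2 - 1 + z ^ 2 := by linarith [P.dd, P.circle]
  have h5 : 0 ≤ both1 s y := by
    rw [P.both1_eq, e3]
    nlinarith [mul_nonneg hY hY, mul_nonneg hY (sq_nonneg z), sq_nonneg (z ^ 2)]
  have hl : z * ((1 + d ^ 2) * (3 * (y ^ 2 - 1) + z ^ 2)) ≤ G * den s y := by
    rw [P.den_eq]; simpa using P.left
  have hr : d ^ 3 * (y - z * d) ≤ H * den s y := by rw [P.den_eq]; exact P.right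
  have e4 : z * both1 s y + y * d ^ 3 =
      z * ((1 + d ^ 2) * (3 * (y ^ 2 - 1) + z ^ 2)) + d ^ 3 * (y - z * d) := by
    rw [P.both1_eq]
    linear_combination (3 * z * (1 + d ^ 2)) * e3
  have h0 : z * both1 s y + y * d ^ 3 ≤ (G + H) * den s y := by linarith
  have h1 := mul_le_mul_of_nonneg_left (P.cube_le C) (zLd_pos K).le
  have h2 := mul_le_mul_of_nonneg_left (mul_le_mul_of_nonneg_right (zL_le K P.z0) h5) (cD_pos hC).le
  have h3 := mul_le_mul_of_nonneg_left h0 (mul_pos (cD_pos hC) (zLd_pos K)).le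
  linear_combination h1 + h2 + h3

theorem Point.le_line (P : Point hi z s y d G H) {L : Line} (hp : 0 ≤ L.p) (hq : 0 ≤ L.q)
    (hG : 0 ≤ G) (hH : 0 ≤ H) (hT : (L.n1 : ℝ) ≤ 300 * (G + H)) (o : ℕ × ℕ × ℕ)
    (hC : 0 < o.2.1) :
    (0 : ℝ) < (lineNum hi L o s y).2 ∧
      (lineNum hi L o s y).1 ≤ (lineNum hi L o s y).2 * den s y * (L.al + L.p * G + L.q * H) := by
  obtain ⟨kind, C, K⟩ := o
  have hp' : (0 : ℝ) ≤ L.p := Int.cast_nonneg hp
  have hq' : (0 : ℝ) ≤ L.q := Int.cast_nonneg hq
  have hD := P.den_pos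
  have hc := cD_pos hC
  have hld := zLd_pos K
  have hhd := zUd_pos K
  have hTD := mul_le_mul_of_nonneg_right hT hD.le
  simp only [lineNum]
  by_cases k2 : kind = 2
  · simp only [k2, if_true, Int.cast_one]
    exact ⟨one_pos, by
      linarith [mul_nonneg (mul_nonneg hp' hG) hD.le, mul_nonneg (mul_nonneg hq' hH) hD.le]⟩
  simp only [k2, if_false]
  by_cases hqp : L.q ≤ L.p
  · have hpq : (0 : ℝ) ≤ (L.p : ℝ) - L.q := sub_nonneg.2 (Int.cast_le.2 hqp)
    simp only [hqp, if_true]
    by_cases k0 : kind = 0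
    · simp only [k0, if_true]
      push_cast
      refine ⟨by positivity, ?_⟩
      simp only [P.sq_sub, P.one_sub]
      cases hi
      · simp only [Bool.false_eq_true, if_false]
        linear_combination mul_le_mul_of_nonneg_left (P.low_left C K hC) hpq +
          mul_le_mul_of_nonneg_left (P.low_sum C hld.le hC) hq'
      · simp only [if_true]
        linear_combination mul_le_mul_of_nonneg_left (P.left_hi C K hC) hpq +
          mul_le_mul_of_nonneg_left (P.both_hi C K hC) hq'
    · simp only [k0, if_false]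
      push_cast
      refine ⟨by positivity, ?_⟩
      simp only [P.sq_sub, P.one_sub]
      cases hi
      · simp only [Bool.false_eq_true, if_false]
        linear_combination 300 * mul_le_mul_of_nonneg_left (P.low_left C K hC) hpq +
          mul_le_mul_of_nonneg_left hTD (mul_nonneg (mul_pos hc hld).le hq')
      · simp only [if_true]
        linear_combination 300 * mul_le_mul_of_nonneg_left (P.left_hi C K hC) hpq +
          mul_le_mul_of_nonneg_left hTD (mul_nonneg (mul_pos hc hld).le hq')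
  · have hqp' : (0 : ℝ) ≤ (L.q : ℝ) - L.p :=
      sub_nonneg.2 (Int.cast_le.2 (le_of_lt (lt_of_not_ge hqp)))
    simp only [hqp, if_false]
    by_cases k0 : kind = 0
    · simp only [k0, if_true]
      cases hi
      · simp only [Bool.false_eq_true, if_false]
        push_cast
        refine ⟨by positivity, ?_⟩
        simp only [P.sq_sub, P.one_sub]
        linear_combination mul_le_mul_of_nonneg_left (P.low_right C K hC) hqp' +
          mul_le_mul_of_nonneg_left (P.low_sum C hhd.le hC) hp'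
      · simp only [if_true]
        push_cast
        refine ⟨by positivity, ?_⟩
        simp only [P.sq_sub, P.one_sub]
        linear_combination
          mul_le_mul_of_nonneg_left (P.left_hi C K hC) (mul_nonneg hp' hhd.le) +
          mul_le_mul_of_nonneg_left (P.low_right C K hC) (mul_nonneg hq' hld.le)
    · simp only [k0, if_false]
      push_cast
      refine ⟨by positivity, ?_⟩
      simp only [P.sq_sub, P.one_sub]
      linear_combination 300 * mul_le_mul_of_nonneg_left (P.low_right C K hC) hqp' +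
        mul_le_mul_of_nonneg_left hTD (mul_nonneg (mul_pos hc hhd).le hp')

theorem Point.gate_nonneg (P : Point hi z s y d G H) {L : Line}
    (hT : 300 * (G + H) ≤ (L.n2 : ℝ)) (o : ℕ × ℕ) (hC : 0 < o.1) : 0 ≤ gate hi L o s y := by
  have hc := (cD_pos hC).le
  have hld := (zLd_pos o.2).le
  have hTD := mul_le_mul_of_nonneg_right hT P.den_pos.le
  simp only [gate]
  cases hi
  · simp only [Bool.false_eq_true, if_false, P.sq_sub]
    push_cast
    linear_combination 300 * P.low_sum o.1 zero_le_one hC + mul_le_mul_of_nonneg_left hTD hc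
  · simp only [if_true, P.sq_sub, Int.cast_one, P.one_sub]
    push_cast
    linear_combination 300 * P.both_hi o.1 o.2 hC +
      mul_le_mul_of_nonneg_left hTD (mul_nonneg hc hld)

end Bounds

/-- What a passed test gives. -/
theorem of_lineCheck {hi : Bool} {L : Line} {os : List (ℕ × ℕ × ℕ)} {gs : List (ℕ × ℕ)}
    {T : Tree} (h : lineCheck hi L os gs T = true) {G H : ℝ} (P : Point hi z s y d G H) (hG : 0 ≤ G)
    (hH : 0 ≤ H) (hy : if hi then y ≤ 4 else y ≤ 1 ∧ 1 / 4 ≤ y)
    (h1 : (L.n1 : ℝ) ≤ 300 * (G + H)) (h2 : L.n2 = 0 ∨ 300 * (G + H) ≤ (L.n2 : ℝ)) :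
    10000 * num L.A s y ≤ 400 * (y + s) * (L.al + L.p * G + L.q * H) := by
  simp only [lineCheck, Bool.and_eq_true, decide_eq_true_eq] at h
  obtain ⟨⟨hp, hq, ho, hg, hn⟩, hc⟩ := h
  rw [List.all_eq_true] at ho hg
  have hs1 : s ≤ 1 := by nlinarith [P.circle, P.s0, sq_nonneg z]
  set v := if hi then (y - 1) / 3 else y with hv
  have hv01 : 0 ≤ v ∧ v ≤ 1 := by
    cases hi
    · simp only [hv, Bool.false_eq_true, if_false] at hy ⊢
      exact ⟨by linarith [hy.2], hy.1⟩
    · simp only [hv, if_true] at hy ⊢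
      exact ⟨by linarith [P.high rfl], by linarith⟩
  set Yp : Poly := if hi then ((1 : ℤ) : Poly) + ((3 : ℤ) : Poly) * Poly.Y else Poly.Y with hYp
  have hYe : Yp.eval s v = y := by
    cases hi
    · simp [hYp, hv]
    · simp only [hYp, hv, if_true]
      simp
      ring
  obtain ⟨p, hmem, hp0⟩ := of_checkPoly hc P.s0 hs1 hv01.1 hv01.2 (by
    intro g hg'
    rcases List.mem_append.1 hg' with hg' | hg'
    · cases hi
      · simp only [Bool.false_eq_true, if_false, List.mem_cons, List.not_mem_nil, or_false] at hg'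
        simp only [Bool.false_eq_true, if_false] at hy hv
        rcases hg' with rfl | rfl
        · simp [hv, P.le]
        · simp [hv]; linarith [hy.2]
      · simp at hg'
    · obtain ⟨o, ho', rfl⟩ := List.mem_map.1 hg'
      rw [eval_gate, hYe, Poly.eval_X]
      refine P.gate_nonneg ?_ o (by simpa using hg o ho')
      rcases h2 with h2 | h2
      · simp [hn h2] at ho'
      · exact h2)
  obtain ⟨o, ho', rfl⟩ := List.mem_map.1 hmem
  rw [eval_target, hYe, Poly.eval_X] at hp0
  obtain ⟨hpos, hle⟩ := P.le_line hp hq hG hH h1 o (by simpa using ho o ho')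
  simp only [target] at hp0
  push_cast at hp0
  have hys : 0 ≤ y + s := by linarith [P.le, P.s0]
  have hD : 0 < den s y := by
    simp only [den]
    have : 0 ≤ y * y - s * s := by nlinarith [P.le, P.s0]
    push_cast
    positivity
  have := mul_le_mul_of_nonneg_left hle (mul_nonneg (by norm_num : (0 : ℝ) ≤ 400) hys)
  refine le_of_mul_le_mul_left ?_ (mul_pos hpos hD)
  nlinarith

end Vale.Agent.P237.Four
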