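import Vale.Agent.P237.Four.Hull
import Vale.Agent.P237.Four.CertA
import Vale.Agent.P237.Four.CertB
import Vale.Agent.P237.Four.CertC

/-!
P237, dimension four: the integrated linear bounds, and the bound they give on the excess of the
cubed profile in terms of that of the squared one.
-/

noncomputable section

open MeasureTheory Set Real intervalIntegral

namespace Vale.Agent.P237.Four

/-- A line bounds the calibrated integrand at every point. -/
def Certified (L : Line) : Prop :=
  ∀ hi z s y d G H, Point hi z s y d G H → (hi = false → y ≤ 1) → 0 ≤ G → 0 ≤ H →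
    (L.n1 : ℝ) ≤ 300 * (G + H) → (L.n2 = 0 ∨ 300 * (G + H) ≤ (L.n2 : ℝ)) →
    10000 * num L.A s y ≤ 400 * (y + s) * (L.al + L.p * G + L.q * H)

theorem certified_of {L : Line} {os os' : List (ℕ × ℕ × ℕ)} {gs gs' : List (ℕ × ℕ)}
    {T T' : Tree} (h0 : lineCheck false L os gs T = true)
    (h1 : lineCheck true L os' gs' T' = true)
    (hA : 38 ≤ L.A ∧ L.A ≤ 40 ∧ 10000 ≤ L.al) : Certified L := by
  intro hi z s y d G H P hy hG hH hn1 hn2
  have hp : 0 ≤ L.p ∧ 0 ≤ L.q := by
    simp only [lineCheck, Bool.and_eq_true, decide_eq_true_eq] at h0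
    exact ⟨h0.1.1, h0.1.2.1⟩
  have hs := P.s0
  have hy0 : 0 ≤ y := hs.trans P.le
  have hys : 0 ≤ y + s := add_nonneg hy0 hs
  have hA0 : (38 : ℝ) ≤ L.A := by exact_mod_cast hA.1
  have hA1 : (L.A : ℝ) ≤ 40 := by exact_mod_cast hA.2.1
  have hal : (10000 : ℝ) ≤ L.al := by exact_mod_cast hA.2.2
  have hp' : (0 : ℝ) ≤ L.p * G := mul_nonneg (Int.cast_nonneg hp.1) hG
  have hq' : (0 : ℝ) ≤ L.q * H := mul_nonneg (Int.cast_nonneg hp.2) hH
  have hR : 0 ≤ 400 * (y + s) * ((L.al : ℝ) + L.p * G + L.q * H) :=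
    mul_nonneg (by positivity) (by linarith)
  have hz2 : 1 - s * s = z ^ 2 := P.one_sub
  set a := y * y + y * s + s * s with ha
  set b := y * y * y * y + y * y * y * s + y * y * s * s + y * s * s * s + s * s * s * s with hb
  have ha0 : 0 ≤ a := by positivity
  have hnum : num L.A s y = 400 * a + L.A * (5 * z ^ 2 * a - b) := by
    simp only [num, Int.cast_ofNat, Int.cast_one, hz2, ← ha, ← hb]
  have hz : z ^ 2 ≤ 1 := by nlinarith [P.circle, sq_nonneg s]
  have hA2 : (L.A : ℝ) * z ^ 2 ≤ 40 := by nlinarith [sq_nonneg z]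
  rcases lt_or_ge y (1 / 4) with hy4 | hy4
  · have hb0 : 0 ≤ b := by positivity
    have h600 : num L.A s y ≤ 600 * a := by
      rw [hnum]; nlinarith [mul_le_mul_of_nonneg_right hA2 ha0]
    have h2 : a ≤ (y + s) * (1 / 2) := by
      nlinarith [P.le, mul_le_mul_of_nonneg_left (show y + s ≤ 1 / 2 by linarith [P.le]) hys]
    nlinarith [mul_le_mul_of_nonneg_left (show (10000 : ℝ) ≤ L.al + L.p * G + L.q * H by linarith)
      hys]
  cases hi
  · exact of_lineCheck h0 P hG hH (by rw [if_neg (by simp)]; exact ⟨hy rfl, hy4⟩) hn1 hn2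
  rcases le_total y 4 with hy' | hy'
  · exact of_lineCheck h1 P hG hH (by simpa using hy') hn1 hn2
  · have h16 : 16 * a ≤ b := by
      nlinarith [mul_le_mul_of_nonneg_right (show (16 : ℝ) ≤ y ^ 2 by nlinarith) ha0,
        show (0 : ℝ) ≤ y * s * s * s + s * s * s * s by positivity]
    have h4 : num L.A s y ≤ 0 := by
      rw [hnum]
      nlinarith [mul_le_mul_of_nonneg_right hA2 ha0,
        mul_le_mul_of_nonneg_left h16 (show (0 : ℝ) ≤ L.A by linarith),
        mul_le_mul_of_nonneg_right hA0 ha0]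
    linarith

/-- Ten thousand times the calibrated integrand, with multiplier `A / 400`. -/
def calib (A : ℤ) (F : ℝ → ℝ) (t : ℝ) : ℝ :=
  10000 * ((F t ^ 3 - √(1 - t ^ 2) ^ 3) +
    A / 400 * (5 * t ^ 2 * (F t ^ 3 - √(1 - t ^ 2) ^ 3) - (F t ^ 5 - √(1 - t ^ 2) ^ 5)))

variable {F : ℝ → ℝ}

theorem Half.intervalIntegrable_calib (hF : Half F) (A : ℤ) {a b : ℝ} (ha : 0 ≤ a) (hab : a ≤ b)
    (hb : b ≤ 1) : IntervalIntegrable (calib A F) volume a b := by
  have h : ∀ k : ℕ, IntervalIntegrable (fun t => F t ^ k - √(1 - t ^ 2) ^ k) volume a b :=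
    fun k => (hF.intervalIntegrable_pow k ha hab hb).sub
      (Continuous.intervalIntegrable (by fun_prop) _ _)
  exact ((h 3).add ((((h 3).continuousOn_mul (by fun_prop)).sub (h 5)).const_mul _)).const_mul _

/-- The whole excess of the squares. -/
def total (F : ℝ → ℝ) : ℝ := ∫ t in (0 : ℝ)..1, excess F t

/-- The excess of the squares up to a height. -/
def acc (F : ℝ → ℝ) (z : ℝ) : ℝ := ∫ t in (0 : ℝ)..z, excess F t

theorem Half.continuousOn_acc (hF : Half F) : ContinuousOn (acc F) (Icc 0 1) := by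
  have := continuousOn_primitive_interval (a := 0) (b := 1)
    (((intervalIntegrable_iff').1 (hF.intervalIntegrable_excess le_rfl zero_le_one le_rfl)) :
      IntegrableOn (excess F) (uIcc 0 1) volume)
  rwa [uIcc_of_le zero_le_one] at this

/-- A certified line integrated between two heights. -/
theorem Half.segment (hF : Half F) {L : Line} (hL : Certified L)
    (h1 : (L.n1 : ℝ) ≤ 300 * total F) (h2 : L.n2 = 0 ∨ 300 * total F ≤ (L.n2 : ℝ)) {a b : ℝ}
    (ha : 0 ≤ a) (hab : a ≤ b) (hb : b ≤ 1) :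
    (∫ t in a..b, calib L.A F t) ≤ ((L.al : ℝ) + L.q * total F) * (acc F b - acc F a) +
      ((L.p : ℝ) - L.q) * (acc F b ^ 2 - acc F a ^ 2) / 2 := by
  have hsub : Icc a b ⊆ Icc (0 : ℝ) 1 := Icc_subset_Icc ha hb
  have hacc := hF.continuousOn_acc.mono hsub
  set c := (L.al : ℝ) + L.q * total F with hc
  set e := (L.p : ℝ) - L.q with he
  have hint : IntervalIntegrable (fun t => (c + e * acc F t) * excess F t) volume a b :=
    (hF.intervalIntegrable_excess ha hab hb).continuousOn_mul
      (by rw [uIcc_of_le hab]; exact (continuousOn_const.add (continuousOn_const.mul hacc)))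
  have hval : ∫ t in a..b, (c + e * acc F t) * excess F t =
      c * (acc F b - acc F a) + e * (acc F b ^ 2 - acc F a ^ 2) / 2 := by
    rw [integral_eq_sub_of_hasDerivAt_of_le hab
      (f := fun t => c * acc F t + e * (acc F t ^ 2 / 2))
      ((continuousOn_const.mul hacc).add (continuousOn_const.mul ((hacc.pow 2).div_const 2)))
      (fun t ht => ?_) hint]
    · ring
    · have ht' : t ∈ Ioo (0 : ℝ) 1 := ⟨ha.trans_lt ht.1, ht.2.trans_le hb⟩
      have hcont : ContinuousOn (excess F) (Ioo 0 1) := by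
        have h := hF.concave.continuousOn_interior
        rw [interior_Ico] at h
        exact (h.pow 2).sub (Continuous.continuousOn (by fun_prop))
      have h1 : HasDerivAt (acc F) (excess F t) t :=
        integral_hasDerivAt_right (hF.intervalIntegrable_excess le_rfl ht'.1.le ht'.2.le)
          (hcont.stronglyMeasurableAtFilter isOpen_Ioo t ht')
          (hcont.continuousAt (isOpen_Ioo.mem_nhds ht'))
      exact ((h1.const_mul c).add (((h1.fun_pow 2).div_const 2).const_mul e)).congr_deriv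
        (by push_cast; ring)
  rw [← hval]
  refine integral_mono_on_of_le_Ioo hab (hF.intervalIntegrable_calib _ ha hab hb) hint
    fun z hz => ?_
  have hz' : z ∈ Ioo (0 : ℝ) 1 := ⟨ha.trans_lt hz.1, hz.2.trans_le hb⟩
  have P := hF.point hz'
  have hsum : acc F z + ∫ t in z..1, excess F t = total F :=
    integral_add_adjacent_intervals (hF.intervalIntegrable_excess le_rfl hz'.1.le hz'.2.le)
      (hF.intervalIntegrable_excess hz'.1.le hz'.2.le le_rfl)
  have h := hL _ _ _ _ _ _ _ P (fun h => le_of_not_gt (of_decide_eq_false h))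
    (hF.integral_nonneg le_rfl hz'.1.le hz'.2.le) (hF.integral_nonneg hz'.1.le hz'.2.le le_rfl)
    (by simp only [acc] at hsum; rw [hsum]; exact h1)
    (by simp only [acc] at hsum; rw [hsum]; exact h2)
  rw [show (∫ t in z..1, excess F t) = total F - acc F z by linarith] at h
  set y := F z
  set s := √(1 - z ^ 2) with hs
  have hs2 : s ^ 2 = 1 - z ^ 2 := sq_sqrt (by nlinarith [hz'.1, hz'.2])
  have hys : 0 ≤ y - s := sub_nonneg.2 (hF.above z ⟨hz'.1.le, hz'.2⟩)
  have h' := mul_le_mul_of_nonneg_left h hys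
  have e1 : excess F z = (y - s) * (y + s) := by
    simp only [excess]; linear_combination hs2
  have e2 : (y - s) * (10000 * num L.A s y) = 400 * calib L.A F z := by
    simp only [num, calib, Int.cast_ofNat, Int.cast_one]
    linear_combination 50000 * (L.A : ℝ) * (y - s) * (y * y + y * s + s * s) * (-hs2)
  rw [e2] at h'
  rw [e1, hc, he]
  simp only [acc] at h' ⊢
  linarith

/-- The excess of the cubes. -/
def cubes (F : ℝ → ℝ) : ℝ := ∫ t in (0 : ℝ)..1, (F t ^ 3 - √(1 - t ^ 2) ^ 3)

/-- The averaged test on a half profile. -/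
def Tested (F : ℝ → ℝ) : Prop :=
  0 ≤ ∫ t in (0 : ℝ)..1, (5 * t ^ 2 * (F t ^ 3 - √(1 - t ^ 2) ^ 3) -
    (F t ^ 5 - √(1 - t ^ 2) ^ 5))

theorem Half.cubes_le (hF : Half F) (hB : Tested F) {A : ℤ} (hA : 0 ≤ A) {β : ℝ}
    (h : ∫ t in (0 : ℝ)..1, calib A F t ≤ β) : 10000 * cubes F ≤ β := by
  have h3 : ∀ k : ℕ, IntervalIntegrable (fun t => F t ^ k - √(1 - t ^ 2) ^ k) volume 0 1 :=
    fun k => (hF.intervalIntegrable_pow k le_rfl zero_le_one le_rfl).sub
      (Continuous.intervalIntegrable (by fun_prop) _ _)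
  have hB' := mul_nonneg (show (0 : ℝ) ≤ A / 400 from div_nonneg (Int.cast_nonneg hA) (by norm_num))
    hB
  simp only [calib] at h
  rw [intervalIntegral.integral_const_mul,
    intervalIntegral.integral_add (h3 3)
      ((((h3 3).continuousOn_mul (by fun_prop)).sub (h3 5)).const_mul _),
    intervalIntegral.integral_const_mul] at h
  simp only [cubes]
  linarith

/-- One line over the whole interval. -/
theorem Half.one_line (hF : Half F) (hB : Tested F) {L : Line} (hL : Certified L)
    (hA : 0 ≤ L.A) (h1 : (L.n1 : ℝ) ≤ 300 * total F)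
    (h2 : L.n2 = 0 ∨ 300 * total F ≤ (L.n2 : ℝ)) :
    10000 * cubes F ≤ (L.al : ℝ) * total F + ((L.p : ℝ) + L.q) * total F ^ 2 / 2 := by
  refine hF.cubes_le hB hA ((hF.segment hL h1 h2 le_rfl zero_le_one le_rfl).trans (le_of_eq ?_))
  simp only [acc, total, intervalIntegral.integral_same]
  ring

/-- Two lines, exchanged where the excess reaches `g`. -/
theorem Half.two_lines (hF : Half F) (hB : Tested F) {L M : Line} (hL : Certified L)
    (hM : Certified M) (hA : 0 ≤ L.A) (hAM : M.A = L.A) (hn : M.n1 = L.n1 ∧ M.n2 = L.n2)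
    (h1 : (L.n1 : ℝ) ≤ 300 * total F) (h2 : L.n2 = 0 ∨ 300 * total F ≤ (L.n2 : ℝ)) {g : ℝ}
    (g0 : 0 ≤ g) (g1 : g ≤ total F) :
    10000 * cubes F ≤ ((L.al : ℝ) + L.q * total F) * g + ((L.p : ℝ) - L.q) * g ^ 2 / 2 +
      ((M.al : ℝ) + M.q * total F) * (total F - g) +
      ((M.p : ℝ) - M.q) * (total F ^ 2 - g ^ 2) / 2 := by
  obtain ⟨w, hw, hwg⟩ := intermediate_value_Icc zero_le_one hF.continuousOn_acc
    (show g ∈ Icc (acc F 0) (acc F 1) by
      simpa [acc, total, intervalIntegral.integral_same] using And.intro g0 g1)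
  have hs1 := hF.segment hL h1 h2 le_rfl hw.1 hw.2
  have hs2 := hF.segment hM (by rw [hn.1]; exact h1) (by rw [hn.2]; exact h2) hw.1 hw.2 le_rfl
  rw [hAM] at hs2
  refine hF.cubes_le hB hA ?_
  rw [← integral_add_adjacent_intervals (hF.intervalIntegrable_calib _ le_rfl hw.1 hw.2)
    (hF.intervalIntegrable_calib _ hw.1 hw.2 le_rfl)]
  refine (add_le_add hs1 hs2).trans (le_of_eq ?_)
  rw [hwg]
  simp only [acc, total, intervalIntegral.integral_same]
  ring

end Vale.Agent.P237.Four
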